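import Mathlib

namespace Vale.Agent.P036

open Finset

abbrev V3 (R : Type) := Fin 3 → R

section defs
variable {R : Type} [CommRing R]
def dt (a b : V3 R) : R := a 0 * b 0 + a 1 * b 1 + a 2 * b 2
def cr (a b : V3 R) : V3 R := ![a 1 * b 2 - a 2 * b 1, a 2 * b 0 - a 0 * b 2, a 0 * b 1 - a 1 * b 0]
def d3 (x y z : V3 R) : R := dt (cr x y) z
@[simp] lemma cr0 (a b : V3 R) : cr a b 0 = a 1 * b 2 - a 2 * b 1 := rfl
@[simp] lemma cr1 (a b : V3 R) : cr a b 1 = a 2 * b 0 - a 0 * b 2 := rfl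
@[simp] lemma cr2 (a b : V3 R) : cr a b 2 = a 0 * b 1 - a 1 * b 0 := rfl
lemma ext3 {S : Type} {a b : Fin 3 → S} (h0 : a 0 = b 0) (h1 : a 1 = b 1) (h2 : a 2 = b 2) :
    a = b := by
  funext i; fin_cases i <;> assumption
end defs

lemma L1 {k1 k2 k3 a b c : ℤ} (hb : a * k1 + b * k2 + c * k3 = 1) {u1 u2 u3 w1 w2 w3 : ℤ}
    (hu : k1 * u1 + k2 * u2 + k3 * u3 = 0) (hw : k1 * w1 + k2 * w2 + k3 * w3 = 0)
    (hd : u1 * w2 - u2 * w1 ≠ 0) {A B : ℕ} (u1A : |u1| ≤ A) (w1A : |w1| ≤ A) (u2B : |u2| ≤ B)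
    (w2B : |w2| ≤ B) (P : Finset (ℤ × ℤ)) (hP : ∀ p ∈ P, |p.1| ≤ A ∧ |p.2| ≤ B)
    (hc : ∀ p ∈ P, ∀ p' ∈ P, k3 ∣ k1 * (p.1 - p'.1) + k2 * (p.2 - p'.2)) :
    P.card * k3.natAbs ≤ (6 * A + 1) * (6 * B + 1) := by
  have key : ∀ t : ℤ, ∃ φ : ℤ × ℤ, |φ.1| ≤ 2 * A ∧ |φ.2| ≤ 2 * B ∧ k3 ∣ k1 * φ.1 + k2 * φ.2 - t := by
    intro t
    set δ := u1 * w2 - u2 * w1 with hδ
    set α := t * a * w2 - t * b * w1 with hα
    set β := u1 * (t * b) - u2 * (t * a) with hβ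
    have a1 := Int.emod_nonneg α hd
    have a2 := Int.emod_lt_abs α hd
    have b1 := Int.emod_nonneg β hd
    have b2 := Int.emod_lt_abs β hd
    have a3 := Int.emod_add_mul_ediv α δ
    have b3 := Int.emod_add_mul_ediv β δ
    have hδ0 : 0 < |δ| := abs_pos.2 hd
    have bd : ∀ (φ p q : ℤ) (C : ℕ), δ * φ = α % δ * p + β % δ * q → |p| ≤ C → |q| ≤ C →
        |φ| ≤ 2 * C := by
      intro φ p q C e hp hq
      have : |δ| * |φ| ≤ |δ| * (2 * C) := by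
        rw [← abs_mul, e]
        calc |α % δ * p + β % δ * q| ≤ |α % δ * p| + |β % δ * q| := abs_add_le _ _
          _ = α % δ * |p| + β % δ * |q| := by rw [abs_mul, abs_mul, abs_of_nonneg a1, abs_of_nonneg b1]
          _ ≤ |δ| * C + |δ| * C := by gcongr
          _ = _ := by ring
      exact le_of_mul_le_mul_left this hδ0
    refine ⟨(t * a - α / δ * u1 - β / δ * w1, t * b - α / δ * u2 - β / δ * w2), ?_, ?_, ?_⟩
    · refine bd _ u1 w1 A ?_ u1A w1A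
      have e1 : α % δ = α - δ * (α / δ) := by linarith
      have e2 : β % δ = β - δ * (β / δ) := by linarith
      rw [e1, e2, hα, hβ, hδ]; ring
    · refine bd _ u2 w2 B ?_ u2B w2B
      have e1 : α % δ = α - δ * (α / δ) := by linarith
      have e2 : β % δ = β - δ * (β / δ) := by linarith
      rw [e1, e2, hα, hβ, hδ]; ring
    · refine ⟨-t * c + α / δ * u3 + β / δ * w3, ?_⟩
      linear_combination t * hb - α / δ * hu - β / δ * hw
  choose φ h1 h2 h3 using key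
  have := card_le_card_of_injOn (s := P ×ˢ range k3.natAbs)
    (t := Icc (-(3 * A : ℤ)) (3 * A) ×ˢ Icc (-(3 * B : ℤ)) (3 * B))
    (fun x => x.1 + φ x.2) ?_ ?_
  · rw [card_product, card_range, card_product, Int.card_Icc, Int.card_Icc] at this
    have e1 : (3 * (A : ℤ) + 1 - -(3 * A)).toNat = 6 * A + 1 := by omega
    have e2 : (3 * (B : ℤ) + 1 - -(3 * B)).toNat = 6 * B + 1 := by omega
    rwa [e1, e2] at this
  · rintro ⟨p, t⟩ hx
    obtain ⟨hp, -⟩ := mem_product.1 (mem_coe.1 hx)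
    obtain ⟨p1, p2⟩ := hP p hp
    have q1 := h1 t
    have q2 := h2 t
    rw [abs_le] at p1 p2 q1 q2
    simp only [coe_product, coe_Icc, Set.mem_prod, Set.mem_Icc, Prod.fst_add, Prod.snd_add]
    omega
  · rintro ⟨p, t⟩ hx ⟨p', t'⟩ hx' e
    obtain ⟨hp, ht⟩ := mem_product.1 (mem_coe.1 hx)
    obtain ⟨hp', ht'⟩ := mem_product.1 (mem_coe.1 hx')
    simp only at e hp hp' ht ht'
    have e1 : p.1 + (φ t).1 = p'.1 + (φ t').1 := congrArg Prod.fst e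
    have e2 : p.2 + (φ t).2 = p'.2 + (φ t').2 := congrArg Prod.snd e
    have d : k3 ∣ (t : ℤ) - t' := by
      have := dvd_sub (dvd_sub (h3 t') (h3 t)) (hc p hp p' hp')
      have e3 : k1 * (φ t').1 + k2 * (φ t').2 - t' - (k1 * (φ t).1 + k2 * (φ t).2 - t) -
          (k1 * (p.1 - p'.1) + k2 * (p.2 - p'.2)) = (t : ℤ) - t' := by
        linear_combination -k1 * e1 - k2 * e2
      rwa [e3] at this
    have tt : t = t' := by
      have := Int.eq_zero_of_dvd_of_natAbs_lt_natAbs d (by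
        have := mem_range.1 ht; have := mem_range.1 ht'; omega)
      omega
    subst tt
    rw [add_right_cancel e]

def Box (A : V3 ℕ) (v : V3 ℤ) : Prop := ∀ j, |v j| ≤ A j

def GN (A : V3 ℕ) (κ : V3 ℤ) : Prop :=
  (∃ a, dt a κ = 1) ∧ ∃ u w, Box A u ∧ Box A w ∧ dt κ u = 0 ∧ dt κ w = 0 ∧ cr u w ≠ 0

lemma L1g {A : V3 ℕ} (hA : ∀ j, 1 ≤ A j) {κ : V3 ℤ} (i1 i2 j : Fin 3)
    (hdt : ∀ a b : V3 ℤ, dt a b = a i1 * b i1 + a i2 * b i2 + a j * b j)
    (hext : ∀ a b : V3 ℤ, a i1 = b i1 → a i2 = b i2 → a j = b j → a = b)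
    (hcr : ∀ u w : V3 ℤ, dt κ u = 0 → dt κ w = 0 → cr u w ≠ 0 → κ j ≠ 0 →
      u i1 * w i2 - u i2 * w i1 ≠ 0)
    (h : GN A κ) (P : Finset (V3 ℤ)) (hP : ∀ p ∈ P, Box A p)
    (hc : ∀ p ∈ P, ∀ p' ∈ P, dt κ p = dt κ p') :
    (P.card : ℝ) * |(κ j : ℝ)| ≤ 49 * (A i1 * A i2) := by
  by_cases hk : κ j = 0
  · simp only [hk, Int.cast_zero, abs_zero, mul_zero]; positivity
  obtain ⟨⟨a, ha⟩, u, w, hu, hw, ku, kw, huw⟩ := h
  have hd := hcr u w ku kw huw hk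
  rw [hdt] at ha ku kw
  have inj : Set.InjOn (fun p : V3 ℤ => (p i1, p i2)) P := by
    intro p hp p' hp' e
    have e1 : p i1 = p' i1 := congrArg Prod.fst e
    have e2 : p i2 = p' i2 := congrArg Prod.snd e
    have := hc p hp p' hp'
    rw [hdt, hdt, e1, e2] at this
    exact hext _ _ e1 e2 (mul_left_cancel₀ hk (by linarith))
  have := L1 ha ku kw hd (hu i1) (hw i1) (hu i2) (hw i2) (P.image fun p => (p i1, p i2))
    (by
      intro x hx
      obtain ⟨p, hp, rfl⟩ := mem_image.1 hx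
      exact ⟨hP p hp i1, hP p hp i2⟩)
    (by
      intro x hx x' hx'
      obtain ⟨p, hp, rfl⟩ := mem_image.1 hx
      obtain ⟨p', hp', rfl⟩ := mem_image.1 hx'
      have := hc p hp p' hp'
      rw [hdt, hdt] at this
      exact ⟨p' j - p j, by linear_combination this⟩)
  rw [card_image_of_injOn inj] at this
  have h1 := hA i1
  have h2 := hA i2
  have h3 : P.card * (κ j).natAbs ≤ 49 * (A i1 * A i2) := this.trans (by nlinarith)
  have h4 : (((κ j).natAbs : ℕ) : ℝ) = |(κ j : ℝ)| := by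
    rw [← Int.cast_abs, ← Int.natCast_natAbs]; rfl
  rw [← h4]; exact_mod_cast h3

lemma L1v {A : V3 ℕ} (hA : ∀ j, 1 ≤ A j) {κ : V3 ℤ} (h : GN A κ) (P : Finset (V3 ℤ))
    (hP : ∀ p ∈ P, Box A p) (hc : ∀ p ∈ P, ∀ p' ∈ P, dt κ p = dt κ p') (j : Fin 3) :
    (P.card : ℝ) * (A j * |(κ j : ℝ)|) ≤ 49 * (A 0 * A 1 * A 2) := by
  have key : ∀ u w : V3 ℤ, dt κ u = 0 → dt κ w = 0 → cr u w ≠ 0 → ∀ j, κ j ≠ 0 → cr u w j ≠ 0 := by
    intro u w hu hw h j hj h0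
    apply h
    have e : ∀ i, κ j * cr u w i = κ i * cr u w j := by
      intro i
      simp only [dt] at hu hw
      fin_cases i <;> fin_cases j <;> simp <;>
        first
        | linear_combination (u 2) * hw - (w 2) * hu
        | linear_combination (w 2) * hu - (u 2) * hw
        | linear_combination (u 1) * hw - (w 1) * hu
        | linear_combination (w 1) * hu - (u 1) * hw
        | linear_combination (u 0) * hw - (w 0) * hu
        | linear_combination (w 0) * hu - (u 0) * hw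
    funext i
    have := e i
    rw [h0, mul_zero] at this
    exact (mul_eq_zero.1 this).resolve_left hj
  fin_cases j
  · have := L1g hA 1 2 0 (fun a b => by simp only [dt]; ring) (fun a b h1 h2 h0 => ext3 h0 h1 h2)
      (fun u w hu hw h hj => key u w hu hw h 0 hj) h P hP hc
    have h0 : (0 : ℝ) ≤ A 0 := Nat.cast_nonneg _
    simp only [Fin.zero_eta]
    nlinarith [mul_le_mul_of_nonneg_left this h0]
  · have := L1g hA 2 0 1 (fun a b => by simp only [dt]; ring) (fun a b h2 h0 h1 => ext3 h0 h1 h2)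
      (fun u w hu hw h hj => key u w hu hw h 1 hj) h P hP hc
    have h0 : (0 : ℝ) ≤ A 1 := Nat.cast_nonneg _
    simp only [Fin.mk_one]
    nlinarith [mul_le_mul_of_nonneg_left this h0]
  · have := L1g hA 0 1 2 (fun a b => by simp only [dt]) (fun a b h0 h1 h2 => ext3 h0 h1 h2)
      (fun u w hu hw h hj => key u w hu hw h 2 hj) h P hP hc
    have h0 : (0 : ℝ) ≤ A 2 := Nat.cast_nonneg _
    simp only [Fin.reduceFinMk]
    nlinarith [mul_le_mul_of_nonneg_left this h0]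

lemma prim {c : V3 ℤ} (hc : c ≠ 0) : ∃ (g : ℤ) (κ : V3 ℤ), g ≠ 0 ∧ (∀ j, c j = g * κ j) ∧
    ∃ a, dt a κ = 1 := by
  set g1 : ℤ := ((Int.gcd (c 0) (c 1) : ℕ) : ℤ) with hg1
  set g : ℤ := ((Int.gcd g1 (c 2) : ℕ) : ℤ) with hg
  have d1 : g ∣ g1 := Int.gcd_dvd_left _ _
  have d2 : g ∣ c 2 := Int.gcd_dvd_right _ _
  have d0 : g ∣ c 0 := d1.trans (Int.gcd_dvd_left _ _)
  have d1' : g ∣ c 1 := d1.trans (Int.gcd_dvd_right _ _)
  obtain ⟨k0, e0⟩ := d0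
  obtain ⟨k1, e1⟩ := d1'
  obtain ⟨k2, e2⟩ := d2
  have g0 : g ≠ 0 := by
    intro h; apply hc
    rw [h, zero_mul] at e0 e1 e2
    exact ext3 e0 e1 e2
  have b1 := Int.gcd_eq_gcd_ab (c 0) (c 1)
  have b2 := Int.gcd_eq_gcd_ab g1 (c 2)
  rw [← hg1] at b1
  rw [← hg] at b2
  refine ⟨g, ![k0, k1, k2], g0, fun j => by fin_cases j <;> simp [e0, e1, e2],
    ![(c 0).gcdA (c 1) * g1.gcdA (c 2), (c 0).gcdB (c 1) * g1.gcdA (c 2), g1.gcdB (c 2)], ?_⟩
  apply mul_left_cancel₀ g0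
  simp only [dt, Matrix.cons_val_zero, Matrix.cons_val_one, Matrix.cons_val]
  linear_combination -b2 - g1.gcdA (c 2) * b1 - (c 0).gcdA (c 1) * g1.gcdA (c 2) * e0 -
    (c 0).gcdB (c 1) * g1.gcdA (c 2) * e1 - g1.gcdB (c 2) * e2

lemma harm (R : ℕ) : ∑ s ∈ Icc (-(R : ℤ)) R, 1 / (1 + |(s : ℝ)|) ≤ 2 * (1 + Real.log (R + 1)) := by
  have h1 : ∑ s ∈ Icc (-(R : ℤ)) R, 1 / (1 + |(s : ℝ)|) ≤ 2 * (harmonic (R + 1) : ℝ) - 1 := by
    induction R with
    | zero => simp [harmonic]; norm_num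
    | succ R ih =>
      have e : Icc (-((R + 1 : ℕ) : ℤ)) (R + 1 : ℕ) =
          insert (-((R : ℤ) + 1)) (insert ((R : ℤ) + 1) (Icc (-(R : ℤ)) R)) := by
        ext s; simp only [mem_Icc, mem_insert]; omega
      rw [e, sum_insert (by simp only [mem_Icc, mem_insert]; omega),
        sum_insert (by simp only [mem_Icc]; omega), harmonic_succ]
      push_cast
      rw [abs_neg, abs_of_nonneg (by positivity)]
      have : (1 : ℝ) / (1 + (R + 1)) = ((R : ℝ) + 1 + 1)⁻¹ := by rw [one_div]; congr 1; ring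
      rw [this]; linarith
  have h2 := harmonic_le_one_add_log (R + 1)
  push_cast at h2
  linarith

lemma count_tri {A : V3 ℕ} (hA : ∀ j, 1 ≤ A j) (T : Finset (V3 ℤ × V3 ℤ × V3 ℤ))
    (κ : V3 ℤ × V3 ℤ × V3 ℤ → V3 ℤ) (t : V3 ℤ → V3 ℤ) {Γ f : ℝ} {R : ℕ} (hΓ0 : 0 ≤ Γ) (hf0 : 0 ≤ f)
    (hbox : ∀ τ ∈ T, Box A τ.1 ∧ Box A τ.2.1 ∧ Box A τ.2.2)
    (hGN : ∀ τ ∈ T, GN A (κ τ))
    (h0 : ∀ τ ∈ T, dt (κ τ) τ.1 = 0 ∧ dt (κ τ) τ.2.1 = 0)
    (hz : ∀ τ ∈ T, ∀ τ' ∈ T, κ τ = κ τ' → τ.1 = τ'.1 → τ.2.1 = τ'.2.1 →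
      dt (κ τ) τ.2.2 = dt (κ τ) τ'.2.2)
    (hΓ : ∀ τ ∈ T, ∀ s : ℝ, 0 ≤ s → (∀ j, s * (A j * |(κ τ j : ℝ)|) ≤ 49 * (A 0 * A 1 * A 2)) →
      ∀ j, s * (1 + |(t (κ τ) j : ℝ)|) ≤ Γ)
    (hf : ∀ v, ((((T.image κ).filter fun k => t k = v).card : ℕ) : ℝ) ≤ f)
    (hR : ∀ τ ∈ T, ∀ j, |t (κ τ) j| ≤ R) :
    (T.card : ℝ) ≤ Γ ^ 3 * f * (2 * (1 + Real.log (R + 1))) ^ 3 := by
  let w : V3 ℤ → ℝ := fun v => ∏ j, 1 / (1 + |(v j : ℝ)|)
  have w0 : ∀ v, 0 ≤ w v := fun v => prod_nonneg fun j _ => by positivity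
  have fib : ∀ k ∈ T.image κ, ((T.filter fun τ => κ τ = k).card : ℝ) ≤ Γ ^ 3 * w (t k) := by
    intro k hk
    obtain ⟨τ0, hτ0, rfl⟩ := mem_image.1 hk
    set Fb := T.filter fun τ => κ τ = κ τ0 with hFb
    have bd : ∀ P : Finset (V3 ℤ), (∀ p ∈ P, Box A p) →
        (∀ p ∈ P, ∀ p' ∈ P, dt (κ τ0) p = dt (κ τ0) p') → ∀ j,
        (P.card : ℝ) ≤ Γ * (1 / (1 + |(t (κ τ0) j : ℝ)|)) := by
      intro P h1 h2 j
      have := hΓ τ0 hτ0 P.card (Nat.cast_nonneg _) (L1v hA (hGN τ0 hτ0) P h1 h2) j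
      rw [mul_one_div, le_div_iff₀ (by positivity)]
      exact this
    have b1 := bd (Fb.image fun τ => τ.1) (by
      intro p hp; obtain ⟨τ, hτ, rfl⟩ := mem_image.1 hp; exact (hbox τ (mem_filter.1 hτ).1).1) (by
      intro p hp p' hp'
      obtain ⟨τ, hτ, rfl⟩ := mem_image.1 hp
      obtain ⟨τ', hτ', rfl⟩ := mem_image.1 hp'
      have a1 := (h0 τ (mem_filter.1 hτ).1).1
      have a2 := (h0 τ' (mem_filter.1 hτ').1).1
      rw [(mem_filter.1 hτ).2] at a1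
      rw [(mem_filter.1 hτ').2] at a2
      rw [a1, a2]) 0
    have b2 := bd (Fb.image fun τ => τ.2.1) (by
      intro p hp; obtain ⟨τ, hτ, rfl⟩ := mem_image.1 hp; exact (hbox τ (mem_filter.1 hτ).1).2.1) (by
      intro p hp p' hp'
      obtain ⟨τ, hτ, rfl⟩ := mem_image.1 hp
      obtain ⟨τ', hτ', rfl⟩ := mem_image.1 hp'
      have a1 := (h0 τ (mem_filter.1 hτ).1).2
      have a2 := (h0 τ' (mem_filter.1 hτ').1).2
      rw [(mem_filter.1 hτ).2] at a1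
      rw [(mem_filter.1 hτ').2] at a2
      rw [a1, a2]) 1
    have b3 : ∀ xy ∈ (Fb.image fun τ => τ.1) ×ˢ (Fb.image fun τ => τ.2.1),
        ((Fb.filter fun τ => (τ.1, τ.2.1) = xy).card : ℝ) ≤
          Γ * (1 / (1 + |(t (κ τ0) 2 : ℝ)|)) := by
      intro xy _
      have := bd ((Fb.filter fun τ => (τ.1, τ.2.1) = xy).image fun τ => τ.2.2) (by
        intro p hp; obtain ⟨τ, hτ, rfl⟩ := mem_image.1 hp
        exact (hbox τ (mem_filter.1 (mem_filter.1 hτ).1).1).2.2) (by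
        intro p hp p' hp'
        obtain ⟨τ, hτ, rfl⟩ := mem_image.1 hp
        obtain ⟨τ', hτ', rfl⟩ := mem_image.1 hp'
        obtain ⟨a1, a2⟩ := mem_filter.1 hτ
        obtain ⟨a1', a2'⟩ := mem_filter.1 hτ'
        obtain ⟨c1, c2⟩ := mem_filter.1 a1
        obtain ⟨c1', c2'⟩ := mem_filter.1 a1'
        have e := a2.trans a2'.symm
        have := hz τ c1 τ' c1' (c2.trans c2'.symm) (Prod.mk.inj e).1 (Prod.mk.inj e).2
        rwa [c2] at this) 2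
      rwa [card_image_of_injOn] at this
      intro τ hτ τ' hτ' e
      have e' := (mem_filter.1 (mem_coe.1 hτ)).2.trans (mem_filter.1 (mem_coe.1 hτ')).2.symm
      exact Prod.ext (Prod.mk.inj e').1 (Prod.ext (Prod.mk.inj e').2 e)
    rw [card_eq_sum_card_fiberwise (f := fun τ => (τ.1, τ.2.1))
      (t := (Fb.image fun τ => τ.1) ×ˢ (Fb.image fun τ => τ.2.1))
      (fun τ hτ => mem_coe.2 (mem_product.2 ⟨mem_image_of_mem _ hτ, mem_image_of_mem _ hτ⟩))]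
    push_cast
    refine (sum_le_sum b3).trans ?_
    rw [sum_const, card_product, nsmul_eq_mul]
    push_cast
    calc _ ≤ (Γ * (1 / (1 + |(t (κ τ0) 0 : ℝ)|))) * (Γ * (1 / (1 + |(t (κ τ0) 1 : ℝ)|))) *
          (Γ * (1 / (1 + |(t (κ τ0) 2 : ℝ)|))) := by gcongr
      _ = _ := by simp only [w, Fin.prod_univ_three]; ring
  rw [card_eq_sum_card_fiberwise (f := κ) (t := T.image κ)
    (fun τ hτ => mem_coe.2 (mem_image_of_mem _ hτ))]
  push_cast
  refine (sum_le_sum fib).trans ?_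
  rw [← mul_sum, mul_assoc]
  refine mul_le_mul_of_nonneg_left ?_ (by positivity)
  let Cu := Fintype.piFinset fun _ : Fin 3 => Icc (-(R : ℤ)) R
  rw [← sum_fiberwise_of_maps_to (g := t) (t := Cu) (fun k hk => by
    obtain ⟨τ, hτ, rfl⟩ := mem_image.1 hk
    exact Fintype.mem_piFinset.2 fun j => mem_Icc.2 (abs_le.1 (hR τ hτ j)))]
  have e1 : ∀ v ∈ Cu, ∑ k ∈ (T.image κ).filter (fun k => t k = v), w (t k) ≤ f * w v := by
    intro v _
    rw [sum_congr rfl (g := fun _ => w v) (fun k hk => by rw [(mem_filter.1 hk).2]), sum_const,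
      nsmul_eq_mul]
    exact mul_le_mul_of_nonneg_right (hf v) (w0 v)
  refine (sum_le_sum e1).trans ?_
  rw [← mul_sum]
  refine mul_le_mul_of_nonneg_left ?_ hf0
  rw [← prod_univ_sum (fun _ : Fin 3 => Icc (-(R : ℤ)) R) (fun _ s => 1 / (1 + |(s : ℝ)|))]
  rw [prod_const, card_univ, Fintype.card_fin]
  gcongr
  exact harm R

end Vale.Agent.P036
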