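import Mathlib
import Vale.Agent.P036.Lat

namespace Vale.Agent.P036

open Finset

abbrev Tri (R : Type) := V3 R × V3 R × V3 R

def BoxT (A : V3 ℕ) (τ : Tri ℤ) : Prop := Box A τ.1 ∧ Box A τ.2.1 ∧ Box A τ.2.2

lemma cr_bd {A : V3 ℕ} {M : ℕ} (hM : ∀ j, A j ≤ M) {u w : V3 ℤ} (hu : Box A u) (hw : Box A w)
    (j : Fin 3) : |cr u w j| ≤ (2 * M ^ 2 : ℕ) := by
  have h : ∀ i k, |u i * w k| ≤ (M : ℤ) ^ 2 := by
    intro i k
    have h1 : |u i| ≤ M := (hu i).trans (by exact_mod_cast hM i)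
    have h2 : |w k| ≤ M := (hw k).trans (by exact_mod_cast hM k)
    rw [abs_mul, sq]; gcongr
  push_cast
  fin_cases j
  · have := h 1 2; have := h 2 1; have := abs_sub (u 1 * w 2) (u 2 * w 1)
    simp only [Fin.zero_eta, cr0]; linarith
  · have := h 2 0; have := h 0 2; have := abs_sub (u 2 * w 0) (u 0 * w 2)
    simp only [Fin.mk_one, cr1]; linarith
  · have := h 0 1; have := h 1 0; have := abs_sub (u 0 * w 1) (u 1 * w 0)
    simp only [Fin.reduceFinMk, cr2]; linarith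

lemma normal0 {A : V3 ℕ} {M : ℕ} (hM : ∀ j, A j ≤ M) {u w : V3 ℤ} (hu : Box A u) (hw : Box A w)
    (h : cr u w ≠ 0) : ∃ (g : ℤ) (κ : V3 ℤ), g ≠ 0 ∧ GN A κ ∧ (∀ v, dt (cr u w) v = g * dt κ v) ∧
      ∀ j, |κ j| ≤ (2 * M ^ 2 : ℕ) := by
  obtain ⟨g, κ, g0, e, ha⟩ := prim h
  have e' : ∀ v, dt (cr u w) v = g * dt κ v := by
    intro v; simp only [dt, e]; ring
  refine ⟨g, κ, g0, ⟨ha, u, w, hu, hw, ?_, ?_, h⟩, e', fun j => ?_⟩
  · have := e' u
    have h0 : dt (cr u w) u = 0 := by simp only [dt, cr0, cr1, cr2]; ring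
    rw [h0] at this; exact (mul_eq_zero.1 this.symm).resolve_left g0
  · have := e' w
    have h0 : dt (cr u w) w = 0 := by simp only [dt, cr0, cr1, cr2]; ring
    rw [h0] at this; exact (mul_eq_zero.1 this.symm).resolve_left g0
  · refine le_trans ?_ (cr_bd hM hu hw j)
    rw [e, abs_mul]
    exact le_mul_of_one_le_left (abs_nonneg _) (Int.one_le_abs g0)

def AI {R : Type} [CommRing R] (e : V3 R) (τ : Tri R) : Prop :=
  dt (cr τ.1 τ.2.1) e ≠ 0 ∨ dt (cr τ.2.1 τ.2.2) e ≠ 0 ∨ dt (cr τ.1 τ.2.2) e ≠ 0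

lemma normal {A : V3 ℕ} {M : ℕ} (hM : ∀ j, A j ≤ M) {τ : Tri ℤ} (hb : BoxT A τ)
    (hd : d3 τ.1 τ.2.1 τ.2.2 = 0) {e : V3 ℤ} (he : AI e τ) :
    ∃ κ, GN A κ ∧ dt κ τ.1 = 0 ∧ dt κ τ.2.1 = 0 ∧ dt κ τ.2.2 = 0 ∧ dt κ e ≠ 0 ∧
      ∀ j, |κ j| ≤ (2 * M ^ 2 : ℕ) := by
  obtain ⟨x, y, z⟩ := τ
  obtain ⟨bx, b_y, bz⟩ := hb
  have key : ∀ u w : V3 ℤ, Box A u → Box A w → dt (cr u w) e ≠ 0 → dt (cr u w) x = 0 →
      dt (cr u w) y = 0 → dt (cr u w) z = 0 → ∃ κ, GN A κ ∧ dt κ x = 0 ∧ dt κ y = 0 ∧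
      dt κ z = 0 ∧ dt κ e ≠ 0 ∧ ∀ j, |κ j| ≤ (2 * M ^ 2 : ℕ) := by
    intro u w hu hw h1 h2 h3 h4
    obtain ⟨g, κ, g0, h5, h6, h7⟩ := normal0 hM hu hw (fun h => h1 (by rw [h]; simp [dt]))
    rw [h6] at h1 h2 h3 h4
    exact ⟨κ, h5, (mul_eq_zero.1 h2).resolve_left g0, (mul_eq_zero.1 h3).resolve_left g0,
      (mul_eq_zero.1 h4).resolve_left g0, fun h => h1 (by rw [h, mul_zero]), h7⟩
  simp only [d3, dt, cr0, cr1, cr2] at hd
  rcases he with h | h | h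
  · refine key x y bx b_y h ?_ ?_ ?_ <;> simp only [dt, cr0, cr1, cr2]
    · ring
    · ring
    · exact hd
  · refine key y z b_y bz h ?_ ?_ ?_ <;> simp only [dt, cr0, cr1, cr2]
    · linear_combination hd
    · ring
    · ring
  · refine key x z bx bz h ?_ ?_ ?_ <;> simp only [dt, cr0, cr1, cr2]
    · ring
    · linear_combination -hd
    · ring

noncomputable def Lg (N : ℕ) : ℝ := 2 * (1 + Real.log ((2 * (2 * N) ^ 2 : ℕ) + 1))

lemma exists_big {κ : V3 ℤ} {a : V3 ℤ} (h : dt a κ = 1) : ∃ i, (1 : ℝ) ≤ |(κ i : ℝ)| := by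
  by_contra hc
  push Not at hc
  have : ∀ i, κ i = 0 := fun i => by
    have := hc i
    have : |κ i| < 1 := by exact_mod_cast this
    exact Int.abs_lt_one_iff.1 this
  simp [dt, this] at h

lemma countI {N : ℕ} (hN : 1 ≤ N) (T : Finset (Tri ℤ)) {D : ℤ} (hD : D ≠ 0)
    (hT : ∀ τ ∈ T, BoxT (fun _ => 2 * N) τ ∧ d3 τ.1 τ.2.1 τ.2.2 = D) :
    (T.card : ℝ) ≤ (392 * (N : ℝ) ^ 2) ^ 3 * Lg N ^ 3 := by
  have : ∀ τ : Tri ℤ, ∃ κ : V3 ℤ, τ ∈ T → ∃ g : ℤ, g ≠ 0 ∧ GN (fun _ => 2 * N) κ ∧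
      (∀ v, dt (cr τ.1 τ.2.1) v = g * dt κ v) ∧ ∀ j, |κ j| ≤ (2 * (2 * N) ^ 2 : ℕ) := by
    intro τ
    by_cases h : τ ∈ T
    · obtain ⟨⟨b1, b2, -⟩, e⟩ := hT τ h
      obtain ⟨g, κ, h'⟩ := normal0 (M := 2 * N) (fun _ => le_rfl) b1 b2 (fun h0 => hD (by
        rw [← e, d3, h0]; simp [dt]))
      exact ⟨κ, fun _ => ⟨g, h'⟩⟩
    · exact ⟨0, fun h' => absurd h' h⟩
  choose κ hκ using this
  have N0 : (0 : ℝ) < N := by exact_mod_cast hN
  have := count_tri (A := fun _ => 2 * N) (fun _ => by omega) T κ id (Γ := 392 * (N : ℝ) ^ 2)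
    (f := 1) (R := 2 * (2 * N) ^ 2) (by positivity) zero_le_one (fun τ h => (hT τ h).1)
    (fun τ h => (hκ τ h).choose_spec.2.1) (fun τ h => by
      obtain ⟨g, g0, -, e, -⟩ := hκ τ h
      have e1 := e τ.1
      have e2 := e τ.2.1
      have h1 : dt (cr τ.1 τ.2.1) τ.1 = 0 := by simp only [dt, cr0, cr1, cr2]; ring
      have h2 : dt (cr τ.1 τ.2.1) τ.2.1 = 0 := by simp only [dt, cr0, cr1, cr2]; ring
      rw [h1] at e1
      rw [h2] at e2
      exact ⟨(mul_eq_zero.1 e1.symm).resolve_left g0, (mul_eq_zero.1 e2.symm).resolve_left g0⟩)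
    (fun τ h τ' h' _ e1 e2 => by
      obtain ⟨g, g0, -, e, -⟩ := hκ τ h
      apply mul_left_cancel₀ g0
      rw [← e, ← e]
      have a1 := (hT τ h).2
      have a2 := (hT τ' h').2
      rw [← e1, ← e2] at a2
      exact a1.trans a2.symm)
    (fun τ h s s0 hs j => by
      obtain ⟨g, g0, ⟨⟨a, ha⟩, -⟩, -, -⟩ := hκ τ h
      obtain ⟨i, hi⟩ := exists_big ha
      have a1 := hs i
      have a2 := hs j
      push_cast at a1 a2
      have a3 : s * (2 * N) ≤ s * (2 * N * |(κ τ i : ℝ)|) :=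
        mul_le_mul_of_nonneg_left (le_mul_of_one_le_right (by positivity) hi) s0
      refine le_of_mul_le_mul_right (a := 2 * (N : ℝ)) ?_ (by positivity)
      simp only [id]
      nlinarith)
    (fun v => by
      have : ((T.image κ).filter fun k => id k = v).card ≤ 1 :=
        card_le_one.2 fun a ha b hb => (mem_filter.1 ha).2.trans (mem_filter.1 hb).2.symm
      exact_mod_cast this)
    (fun τ h j => (hκ τ h).choose_spec.2.2.2 j)
  simpa [Lg] using this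

lemma ediv_bd (k : ℤ) {q : ℕ} (hq : 1 ≤ q) :
    (q : ℝ) * (1 + |((k / q : ℤ) : ℝ)|) ≤ |(k : ℝ)| + 2 * q ∧ |k / q| ≤ |k| := by
  have q0 : (0 : ℤ) < q := by exact_mod_cast hq
  have a1 := Int.emod_nonneg k q0.ne'
  have a2 := Int.emod_lt_of_pos k q0
  have a3 := Int.emod_add_mul_ediv k q
  refine ⟨?_, Int.abs_ediv_le_abs k q⟩
  have : (q : ℤ) * (1 + |k / q|) ≤ |k| + 2 * q := by
    have : (q : ℤ) * |k / q| = |k - k % q| := by
      rw [← abs_of_pos q0, ← abs_mul, abs_of_pos q0]; congr 1; linarith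
    have := abs_sub k (k % q)
    rw [abs_of_nonneg a1] at this
    nlinarith
  exact_mod_cast this

lemma eq_of_mod_div {a b : ℤ} {q : ℕ} (h1 : (a : ZMod q) = b) (h2 : a / q = b / q) : a = b := by
  have h3 : a % q = b % q := (ZMod.intCast_eq_intCast_iff a b q).1 h1
  have a3 := Int.emod_add_mul_ediv a q
  have b3 := Int.emod_add_mul_ediv b q
  rw [← a3, ← b3, h2, h3]

lemma countII {N q : ℕ} (hN : 1 ≤ N) (hq : 1 ≤ q) (T : Finset (Tri ℤ)) (Z : Finset (V3 (ZMod q)))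
    (hZ : Z.card ≤ q) (hZ0 : ∀ k ∈ Z, k 0 + k 1 + k 2 = 0)
    (hT : ∀ τ ∈ T, BoxT (fun _ => 2 * N) τ ∧ d3 τ.1 τ.2.1 τ.2.2 = 0 ∧ AI (fun _ => 1) τ ∧
      ∀ κ : V3 ℤ, dt κ τ.1 = 0 → dt κ τ.2.1 = 0 → dt κ τ.2.2 = 0 → (fun j => (κ j : ZMod q)) ∈ Z) :
    (T.card : ℝ) ≤ (1764 * (N : ℝ) ^ 2 / q) ^ 3 * q * Lg N ^ 3 := by
  have : ∀ τ : Tri ℤ, ∃ κ : V3 ℤ, τ ∈ T → GN (fun _ => 2 * N) κ ∧ dt κ τ.1 = 0 ∧ dt κ τ.2.1 = 0 ∧
      dt κ τ.2.2 = 0 ∧ dt κ (fun _ => 1) ≠ 0 ∧ ∀ j, |κ j| ≤ (2 * (2 * N) ^ 2 : ℕ) := by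
    intro τ
    by_cases h : τ ∈ T
    · obtain ⟨b1, b2, b3, -⟩ := hT τ h
      obtain ⟨κ, h'⟩ := normal (M := 2 * N) (fun _ => le_rfl) b1 b2 b3
      exact ⟨κ, fun _ => h'⟩
    · exact ⟨0, fun h' => absurd h' h⟩
  choose κ hκ using this
  have N0 : (0 : ℝ) < N := by exact_mod_cast hN
  have q0 : (0 : ℝ) < q := by exact_mod_cast hq
  have hmem : ∀ τ ∈ T, (fun j => (κ τ j : ZMod q)) ∈ Z := fun τ h =>
    (hT τ h).2.2.2 _ (hκ τ h).2.1 (hκ τ h).2.2.1 (hκ τ h).2.2.2.1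
  have := count_tri (A := fun _ => 2 * N) (fun _ => by omega) T κ (fun k j => k j / q)
    (Γ := 1764 * (N : ℝ) ^ 2 / q)
    (f := q) (R := 2 * (2 * N) ^ 2) (by positivity) q0.le (fun τ h => (hT τ h).1)
    (fun τ h => (hκ τ h).1) (fun τ h => ⟨(hκ τ h).2.1, (hκ τ h).2.2.1⟩)
    (fun τ h τ' h' e _ _ => by
      have a1 := (hκ τ h).2.2.2.1
      have a2 := (hκ τ' h').2.2.2.1
      rw [← e] at a2
      rw [a1, a2])
    (fun τ h s s0 hs j => by
      have a0 := hZ0 _ (hmem τ h)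
      have a1 := (hκ τ h).2.2.2.2.1
      simp only [dt, mul_one] at a1
      have a2 : (q : ℤ) ∣ κ τ 0 + κ τ 1 + κ τ 2 := by
        rw [← ZMod.intCast_zmod_eq_zero_iff_dvd]; push_cast; exact a0
      have a3 : (q : ℤ) ≤ |κ τ 0| + |κ τ 1| + |κ τ 2| :=
        (Int.le_of_dvd (abs_pos.2 a1) ((dvd_abs _ _).2 a2)).trans (abs_add_three _ _ _)
      have a4 : (q : ℝ) ≤ |(κ τ 0 : ℝ)| + |(κ τ 1 : ℝ)| + |(κ τ 2 : ℝ)| := by exact_mod_cast a3
      have b0 := hs 0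
      have b1 := hs 1
      have b2 := hs 2
      have bj := hs j
      push_cast at b0 b1 b2 bj
      have c := (ediv_bd (κ τ j) hq).1
      rw [le_div_iff₀ q0]
      refine le_of_mul_le_mul_right (a := 2 * (N : ℝ)) ?_ (by positivity)
      have c1 := mul_le_mul_of_nonneg_left c (by positivity : 0 ≤ s * (2 * N))
      have c2 := mul_le_mul_of_nonneg_left a4 (by positivity : 0 ≤ s * (2 * N))
      have : 0 ≤ (N : ℝ) ^ 3 := by positivity
      nlinarith)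
    (fun v => by
      have : (((T.image κ).filter fun k => (fun j => k j / (q : ℤ)) = v)).card ≤ Z.card := by
        refine card_le_card_of_injOn (fun k j => (k j : ZMod q)) ?_ ?_
        · intro k hk
          obtain ⟨τ, h, rfl⟩ := mem_image.1 (mem_filter.1 (mem_coe.1 hk)).1
          exact mem_coe.2 (hmem τ h)
        · intro k hk k' hk' e
          have e' := (mem_filter.1 (mem_coe.1 hk)).2.trans (mem_filter.1 (mem_coe.1 hk')).2.symm
          funext j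
          exact eq_of_mod_div (congrFun e j) (congrFun e' j)
      exact_mod_cast this.trans hZ)
    (fun τ h j => (ediv_bd (κ τ j) hq).2.trans ((hκ τ h).2.2.2.2.2 j))
  simpa [Lg] using this

lemma countIII {q l : ℕ} (hq : 1 ≤ q) (hl : 1 ≤ l) (T : Finset (Tri ℤ))
    (hT : ∀ τ ∈ T, BoxT ![2 * (q * l), 2 * l, 2 * l] τ ∧ d3 τ.1 τ.2.1 τ.2.2 = 0 ∧
      AI ![1, 0, 0] τ) :
    (T.card : ℝ) ≤ (784 * (l : ℝ) ^ 2) ^ 3 * q ^ 2 * Lg (q * l) ^ 3 := by
  have : NeZero q := ⟨by omega⟩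
  have hM : ∀ j, (![2 * (q * l), 2 * l, 2 * l] : V3 ℕ) j ≤ 2 * (q * l) := by
    intro j
    have : l ≤ q * l := Nat.le_mul_of_pos_left l hq
    fin_cases j <;> simp <;> omega
  have : ∀ τ : Tri ℤ, ∃ κ : V3 ℤ, τ ∈ T → GN ![2 * (q * l), 2 * l, 2 * l] κ ∧ dt κ τ.1 = 0 ∧
      dt κ τ.2.1 = 0 ∧ dt κ τ.2.2 = 0 ∧ dt κ ![1, 0, 0] ≠ 0 ∧
      ∀ j, |κ j| ≤ (2 * (2 * (q * l)) ^ 2 : ℕ) := by
    intro τ
    by_cases h : τ ∈ T
    · obtain ⟨b1, b2, b3⟩ := hT τ h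
      obtain ⟨κ, h'⟩ := normal hM b1 b2 b3
      exact ⟨κ, fun _ => h'⟩
    · exact ⟨0, fun h' => absurd h' h⟩
  choose κ hκ using this
  have l0 : (0 : ℝ) < l := by exact_mod_cast hl
  have q0 : (0 : ℝ) < q := by exact_mod_cast hq
  have := count_tri (A := ![2 * (q * l), 2 * l, 2 * l]) (fun j => by
      have : 1 ≤ q * l := Nat.mul_pos hq hl
      fin_cases j <;> simp <;> omega) T κ (fun k => ![k 0, k 1 / q, k 2 / q])
    (Γ := 784 * (l : ℝ) ^ 2)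
    (f := q ^ 2) (R := 2 * (2 * (q * l)) ^ 2) (by positivity) (by positivity)
    (fun τ h => (hT τ h).1)
    (fun τ h => (hκ τ h).1) (fun τ h => ⟨(hκ τ h).2.1, (hκ τ h).2.2.1⟩)
    (fun τ h τ' h' e _ _ => by
      have a1 := (hκ τ h).2.2.2.1
      have a2 := (hκ τ' h').2.2.2.1
      rw [← e] at a2
      rw [a1, a2])
    (fun τ h s s0 hs j => by
      have a1 := (hκ τ h).2.2.2.2.1
      have a2 : κ τ 0 ≠ 0 := by simpa [dt] using a1
      have a3 : (1 : ℝ) ≤ |(κ τ 0 : ℝ)| := by exact_mod_cast Int.one_le_abs a2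
      have b0 := hs 0
      have b1 := hs 1
      have b2 := hs 2
      simp only [Matrix.cons_val_zero, Matrix.cons_val_one, Matrix.cons_val] at b0 b1 b2
      push_cast at b0 b1 b2
      have c0 : s * (2 * (q * l)) ≤ s * (2 * (q * l) * |(κ τ 0 : ℝ)|) :=
        mul_le_mul_of_nonneg_left (le_mul_of_one_le_right (by positivity) a3) s0
      have c1 := mul_le_mul_of_nonneg_left (ediv_bd (κ τ 1) hq).1 (by positivity : 0 ≤ s * (2 * l))
      have c2 := mul_le_mul_of_nonneg_left (ediv_bd (κ τ 2) hq).1 (by positivity : 0 ≤ s * (2 * l))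
      have : 0 ≤ (q : ℝ) * l ^ 3 := by positivity
      refine le_of_mul_le_mul_right (a := 2 * ((q : ℝ) * l)) ?_ (by positivity)
      fin_cases j
      · simp only [Fin.zero_eta, Matrix.cons_val_zero]; nlinarith
      · simp only [Fin.mk_one, Matrix.cons_val_one, Matrix.cons_val_zero]; nlinarith
      · simp only [Fin.reduceFinMk, Matrix.cons_val]; nlinarith)
    (fun v => by
      have : (((T.image κ).filter fun k => (![k 0, k 1 / q, k 2 / q] : V3 ℤ) = v)).card ≤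
          (univ : Finset (ZMod q × ZMod q)).card := by
        refine card_le_card_of_injOn (fun k => ((k 1 : ZMod q), (k 2 : ZMod q)))
          (fun _ _ => mem_coe.2 (mem_univ _)) ?_
        intro k hk k' hk' e
        have e' := (mem_filter.1 (mem_coe.1 hk)).2.trans (mem_filter.1 (mem_coe.1 hk')).2.symm
        exact ext3 (congrFun e' 0) (eq_of_mod_div (Prod.mk.inj e).1 (congrFun e' 1))
          (eq_of_mod_div (Prod.mk.inj e).2 (congrFun e' 2))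
      rw [card_univ, Fintype.card_prod, ZMod.card, ← sq] at this
      exact_mod_cast this)
    (fun τ h j => by
      have := (hκ τ h).2.2.2.2.2
      fin_cases j
      · exact this 0
      · exact (ediv_bd (κ τ 1) hq).2.trans (this 1)
      · exact (ediv_bd (κ τ 2) hq).2.trans (this 2))
  simpa [Lg] using this

end Vale.Agent.P036
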