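import Mathlib
import Vale.Agent.P036.Cnt

namespace Vale.Agent.P036

open Finset

section ring
variable {R : Type} [CommRing R]

/-- a matrix given by its three rows acting on a vector -/
def act (g : Tri R) (u : V3 R) : V3 R := ![dt g.1 u, dt g.2.1 u, dt g.2.2 u]
@[simp] lemma act0 (g : Tri R) (u : V3 R) : act g u 0 = dt g.1 u := rfl
@[simp] lemma act1 (g : Tri R) (u : V3 R) : act g u 1 = dt g.2.1 u := rfl
@[simp] lemma act2 (g : Tri R) (u : V3 R) : act g u 2 = dt g.2.2 u := rfl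
def dT (g : Tri R) : R := d3 g.1 g.2.1 g.2.2

lemma d3_act (g : Tri R) (u v w : V3 R) :
    d3 (act g u) (act g v) (act g w) = dT g * d3 u v w := by
  simp only [d3, dT, dt, cr0, cr1, cr2, act0, act1, act2]; ring

lemma act_inj0 {g : Tri R} (hg : dT g = 1) {u : V3 R} (h : act g u = 0) : u = 0 := by
  have h0 : dt g.1 u = 0 := congrFun h 0
  have h1 : dt g.2.1 u = 0 := congrFun h 1
  have h2 : dt g.2.2 u = 0 := congrFun h 2
  obtain ⟨a, b, c⟩ := g
  simp only [dT, d3, dt, cr0, cr1, cr2] at hg h0 h1 h2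
  refine ext3 ?_ ?_ ?_ <;> simp only [Pi.zero_apply]
  · linear_combination -(u 0) * hg + (b 1 * c 2 - b 2 * c 1) * h0 + (c 1 * a 2 - c 2 * a 1) * h1 +
      (a 1 * b 2 - a 2 * b 1) * h2
  · linear_combination -(u 1) * hg + (b 2 * c 0 - b 0 * c 2) * h0 + (c 2 * a 0 - c 0 * a 2) * h1 +
      (a 2 * b 0 - a 0 * b 2) * h2
  · linear_combination -(u 2) * hg + (b 0 * c 1 - b 1 * c 0) * h0 + (c 0 * a 1 - c 1 * a 0) * h1 +
      (a 0 * b 1 - a 1 * b 0) * h2
end ring

variable {F : Type} [Field F] [Fintype F] [DecidableEq F]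

def SL (F : Type) [Field F] [Fintype F] [DecidableEq F] : Finset (Tri F) :=
  univ.filter fun g => dT g = 1

lemma mem_SL {g : Tri F} : g ∈ SL F ↔ dT g = 1 := by simp [SL]

omit [Fintype F] [DecidableEq F] in
lemma row_ext {u v w : V3 F} (h : d3 u v w ≠ 0) {r s : V3 F} (h1 : dt r u = dt s u)
    (h2 : dt r v = dt s v) (h3 : dt r w = dt s w) : r = s := by
  simp only [dt] at h1 h2 h3
  refine ext3 ?_ ?_ ?_ <;> apply mul_left_cancel₀ h <;> simp only [d3, dt, cr0, cr1, cr2]
  · linear_combination (v 1 * w 2 - v 2 * w 1) * h1 + (w 1 * u 2 - w 2 * u 1) * h2 +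
      (u 1 * v 2 - u 2 * v 1) * h3
  · linear_combination (v 2 * w 0 - v 0 * w 2) * h1 + (w 2 * u 0 - w 0 * u 2) * h2 +
      (u 2 * v 0 - u 0 * v 2) * h3
  · linear_combination (v 0 * w 1 - v 1 * w 0) * h1 + (w 0 * u 1 - w 1 * u 0) * h2 +
      (u 0 * v 1 - u 1 * v 0) * h3

omit [Fintype F] [DecidableEq F] in
lemma act_ext {u v w : V3 F} (h : d3 u v w ≠ 0) {g g' : Tri F} (h1 : act g u = act g' u)
    (h2 : act g v = act g' v) (h3 : act g w = act g' w) : g = g' :=
  Prod.ext (row_ext h (congrFun h1 0) (congrFun h2 0) (congrFun h3 0))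
    (Prod.ext (row_ext h (congrFun h1 1) (congrFun h2 1) (congrFun h3 1))
      (row_ext h (congrFun h1 2) (congrFun h2 2) (congrFun h3 2)))

lemma G3 {u v w : V3 F} (h : d3 u v w ≠ 0) (a b c : V3 F) :
    ((SL F).filter fun g => act g u = a ∧ act g v = b ∧ act g w = c).card ≤ 1 := by
  refine card_le_one.2 fun g hg g' hg' => ?_
  obtain ⟨-, h1, h2, h3⟩ := mem_filter.1 hg
  obtain ⟨-, k1, k2, k3⟩ := mem_filter.1 hg'
  exact act_ext h (h1.trans k1.symm) (h2.trans k2.symm) (h3.trans k3.symm)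

lemma plane_card (n : V3 F) {δ : F} (hδ : δ ≠ 0) :
    ((univ : Finset (V3 F)).filter fun c => dt n c = δ).card ≤ Fintype.card F ^ 2 := by
  rw [sq, ← Fintype.card_prod, ← card_univ]
  by_cases h0 : n 0 = 0
  · by_cases h1 : n 1 = 0
    · by_cases h2 : n 2 = 0
      · rw [filter_false_of_mem]
        · simp
        · intro c _ h; simp [dt, h0, h1, h2] at h; exact hδ h.symm
      · refine card_le_card_of_injOn (fun c => (c 0, c 1)) (fun _ _ => mem_coe.2 (mem_univ _)) ?_
        intro c hc c' hc' e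
        have e' := (mem_filter.1 (mem_coe.1 hc)).2.trans (mem_filter.1 (mem_coe.1 hc')).2.symm
        obtain ⟨e1, e2⟩ := Prod.mk.inj e
        simp only [dt, e1, e2, add_right_inj] at e'
        exact ext3 e1 e2 (mul_left_cancel₀ h2 e')
    · refine card_le_card_of_injOn (fun c => (c 0, c 2)) (fun _ _ => mem_coe.2 (mem_univ _)) ?_
      intro c hc c' hc' e
      have e' := (mem_filter.1 (mem_coe.1 hc)).2.trans (mem_filter.1 (mem_coe.1 hc')).2.symm
      obtain ⟨e1, e2⟩ := Prod.mk.inj e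
      simp only [dt, e1, e2, add_right_inj, add_left_inj] at e'
      exact ext3 e1 (mul_left_cancel₀ h1 e') e2
  · refine card_le_card_of_injOn (fun c => (c 1, c 2)) (fun _ _ => mem_coe.2 (mem_univ _)) ?_
    intro c hc c' hc' e
    have e' := (mem_filter.1 (mem_coe.1 hc)).2.trans (mem_filter.1 (mem_coe.1 hc')).2.symm
    obtain ⟨e1, e2⟩ := Prod.mk.inj e
    simp only [dt, e1, e2, add_left_inj] at e'
    exact ext3 (mul_left_cancel₀ h0 e') e1 e2

lemma G2 {u v : V3 F} (h : cr u v ≠ 0) (a b : V3 F) :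
    ((SL F).filter fun g => act g u = a ∧ act g v = b).card ≤ Fintype.card F ^ 2 := by
  obtain ⟨w, hw⟩ : ∃ w, d3 u v w ≠ 0 := by
    by_contra hc
    push Not at hc
    apply h
    have h0 := hc ![1, 0, 0]
    have h1 := hc ![0, 1, 0]
    have h2 := hc ![0, 0, 1]
    simp only [d3, dt, Matrix.cons_val_zero, Matrix.cons_val_one, Matrix.cons_val, mul_one,
      mul_zero, add_zero, zero_add] at h0 h1 h2
    exact ext3 h0 h1 h2
  refine le_trans ?_ (plane_card (cr a b) hw)
  refine card_le_card_of_injOn (fun g => act g w) ?_ ?_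
  · intro g hg
    obtain ⟨h0, h1, h2⟩ := mem_filter.1 (mem_coe.1 hg)
    refine mem_coe.2 (mem_filter.2 ⟨mem_univ _, ?_⟩)
    have := d3_act g u v w
    rw [mem_SL.1 h0, one_mul, h1, h2] at this
    exact this
  · intro g hg g' hg' e
    obtain ⟨-, h1, h2⟩ := mem_filter.1 (mem_coe.1 hg)
    obtain ⟨-, k1, k2⟩ := mem_filter.1 (mem_coe.1 hg')
    exact act_ext hw (h1.trans k1.symm) (h2.trans k2.symm) e

lemma G1 {u : V3 F} (h : u ≠ 0) (a : V3 F) :
    ((SL F).filter fun g => act g u = a).card ≤ Fintype.card F ^ 5 := by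
  obtain ⟨v, hv⟩ : ∃ v, cr u v ≠ 0 := by
    by_contra hc
    push Not at hc
    apply h
    have h0 := congrFun (hc ![0, 1, 0]) 2
    have h1 := congrFun (hc ![0, 0, 1]) 0
    have h2 := congrFun (hc ![1, 0, 0]) 1
    simp at h0 h1 h2
    exact ext3 h0 h1 h2
  rw [card_eq_sum_card_fiberwise (f := fun g => act g v) (t := univ)
    (fun _ _ => mem_coe.2 (mem_univ _))]
  refine (sum_le_sum (g := fun _ => Fintype.card F ^ 2) fun b _ => ?_).trans ?_
  · rw [filter_filter]; exact G2 hv a b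
  · simp only [sum_const, card_univ, Fintype.card_fun, Fintype.card_fin, smul_eq_mul]
    rw [← pow_add]

lemma G0 (hF : 4 ≤ Fintype.card F) : (Fintype.card F : ℝ) ^ 8 ≤ 2 * (SL F).card := by
  have : (univ : Finset (Fˣ × Fˣ × F × F × F × F × F × F)).card ≤ (SL F).card := by
    refine card_le_card_of_injOn (fun p =>
      ((![p.1, p.2.2.1, p.2.2.2.1], ![p.2.2.2.2.1, (p.2.1 + p.2.2.1 * p.2.2.2.2.1) / p.1,
        p.2.2.2.2.2.1],
        ![p.2.2.2.2.2.2.1, p.2.2.2.2.2.2.2, (1 -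
          (p.2.2.1 * p.2.2.2.2.2.1 - p.2.2.2.1 * ((p.2.1 + p.2.2.1 * p.2.2.2.2.1) / p.1)) *
            p.2.2.2.2.2.2.1 -
          (p.2.2.2.1 * p.2.2.2.2.1 - p.1 * p.2.2.2.2.2.1) * p.2.2.2.2.2.2.2) / p.2.1]) : Tri F))
      ?_ ?_
    · rintro ⟨a, μ, b, c, d, e, f, g⟩ _
      refine mem_coe.2 (mem_SL.2 ?_)
      have := a.ne_zero
      have := μ.ne_zero
      simp only [dT, d3, dt, cr0, cr1, cr2, Matrix.cons_val_zero, Matrix.cons_val_one,
        Matrix.cons_val]
      field_simp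
      ring
    · rintro ⟨a, μ, b, c, d, e, f, g⟩ _ ⟨a', μ', b', c', d', e', f', g'⟩ _ h
      simp only [Prod.mk.injEq] at h
      obtain ⟨h1, h2, h3⟩ := h
      have ea : a = a' := Units.ext (congrFun h1 0)
      have eb : b = b' := congrFun h1 1
      have ec : c = c' := congrFun h1 2
      have ed : d = d' := congrFun h2 0
      have ee : e = e' := congrFun h2 2
      have ef : f = f' := congrFun h3 0
      have eg : g = g' := congrFun h3 1
      subst ea eb ec ed ee ef eg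
      have := congrFun h2 1
      simp only [Matrix.cons_val_zero, Matrix.cons_val_one] at this
      have h4 : (μ : F) = μ' := by
        have := (div_left_inj' a.ne_zero).1 this
        exact add_right_cancel this
      rw [Units.ext h4]
  simp only [card_univ, Fintype.card_prod, Fintype.card_units] at this
  obtain ⟨p, hp⟩ : ∃ p, Fintype.card F = p + 1 := ⟨Fintype.card F - 1, by omega⟩
  rw [hp] at this hF ⊢
  simp only [Nat.add_sub_cancel] at this
  have h1 : (p + 1) ^ 2 ≤ 2 * (p * p) := by nlinarith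
  have h2 : (p + 1) ^ 8 ≤ 2 * (SL F).card := by
    calc (p + 1) ^ 8 = (p + 1) ^ 2 * (p + 1) ^ 6 := by ring
      _ ≤ 2 * (p * p) * (p + 1) ^ 6 := Nat.mul_le_mul_right _ h1
      _ = 2 * (p * (p * ((p + 1) * ((p + 1) * ((p + 1) * ((p + 1) * ((p + 1) * (p + 1)))))))) := by
          ring
      _ ≤ _ := Nat.mul_le_mul_left _ this
  exact_mod_cast h2

lemma ker_card {u v : V3 F} (h : cr u v ≠ 0) (w : V3 F) (i j k : Fin 3)
    (hext : ∀ a b : V3 F, a i = b i → a j = b j → a k = b k → a = b) :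
    ((univ : Finset (V3 F)).filter fun c => c i • u + c j • v + c k • w = 0).card ≤
      Fintype.card F := by
  rw [← card_univ]
  refine card_le_card_of_injOn (fun c => c k) (fun _ _ => mem_coe.2 (mem_univ _)) ?_
  intro c hc c' hc' e
  have e' := (mem_filter.1 (mem_coe.1 hc)).2.trans (mem_filter.1 (mem_coe.1 hc')).2.symm
  simp only at e
  rw [e, add_left_inj] at e'
  have e0 := congrFun e' 0
  have e1 := congrFun e' 1
  have e2 := congrFun e' 2
  simp only [Pi.add_apply, Pi.smul_apply, smul_eq_mul] at e0 e1 e2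
  obtain ⟨l, hl⟩ := Function.ne_iff.1 h
  refine hext _ _ (mul_left_cancel₀ hl ?_) (mul_left_cancel₀ hl ?_) e <;> fin_cases l <;>
    simp only [Fin.zero_eta, Fin.mk_one, Fin.reduceFinMk, cr0, cr1, cr2]
  · linear_combination v 2 * e1 - v 1 * e2
  · linear_combination v 0 * e2 - v 2 * e0
  · linear_combination v 1 * e0 - v 0 * e1
  · linear_combination u 1 * e2 - u 2 * e1
  · linear_combination u 2 * e0 - u 0 * e2
  · linear_combination u 0 * e1 - u 1 * e0

/-- elliptic quadric cap -/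
lemma exists_cap (hF : ringChar F ≠ 2) : ∃ p : F × F → V3 F, ∀ a b c, a ≠ b → a ≠ c → b ≠ c →
    cr (p b - p a) (p c - p a) ≠ 0 := by
  obtain ⟨δ, hδ⟩ := FiniteField.exists_nonsquare hF
  have an : ∀ s t : F, s ^ 2 - δ * t ^ 2 = 0 → s = 0 ∧ t = 0 := by
    intro s t h
    by_cases ht : t = 0
    · subst ht; simpa using h
    · exact absurd ⟨s / t, by field_simp; linear_combination -h⟩ hδ
  refine ⟨fun a => ![a.1, a.2, a.1 ^ 2 - δ * a.2 ^ 2], ?_⟩
  rintro ⟨a1, a2⟩ ⟨b1, b2⟩ ⟨c1, c2⟩ hab hac hbc h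
  have h0 := congrFun h 0
  have h1 := congrFun h 1
  have h2 := congrFun h 2
  simp only [cr0, cr1, cr2, Pi.sub_apply, Matrix.cons_val_zero, Matrix.cons_val_one,
    Matrix.cons_val, Pi.zero_apply] at h0 h1 h2
  have nQ : (b1 - a1) ^ 2 - δ * (b2 - a2) ^ 2 ≠ 0 := fun hq => hab (by
    obtain ⟨x, y⟩ := an _ _ hq
    rw [sub_eq_zero.1 x, sub_eq_zero.1 y])
  by_cases hs : b1 - a1 = 0
  · have hb1 : b1 = a1 := sub_eq_zero.1 hs
    subst hb1
    have hs2 : b2 - a2 ≠ 0 := fun h => hab (by rw [sub_eq_zero.1 h])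
    have hc1 : c1 = b1 := by
      have : (b2 - a2) * (c1 - b1) = 0 := by linear_combination -h2
      exact sub_eq_zero.1 ((mul_eq_zero.1 this).resolve_left hs2)
    subst hc1
    have hδ0 : δ ≠ 0 := fun h => hδ (by rw [h]; exact IsSquare.zero)
    have : δ * ((b2 - a2) * ((c2 - a2) * (c2 - b2))) = 0 := by linear_combination -h0
    rcases mul_eq_zero.1 ((mul_eq_zero.1 ((mul_eq_zero.1 this).resolve_left hδ0)).resolve_left hs2)
      with h | h
    · exact hac (by rw [sub_eq_zero.1 h])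
    · exact hbc (by rw [sub_eq_zero.1 h])
  · have : ((b1 - a1) ^ 2 - δ * (b2 - a2) ^ 2) * ((c1 - a1) * (c1 - b1)) = 0 := by
      linear_combination -(b1 - a1) * h1 +
        δ * ((b1 - a1) * (c2 - a2) + (b2 - a2) * (c1 - a1) + 2 * a2 * (b1 - a1)) * h2
    rcases mul_eq_zero.1 ((mul_eq_zero.1 this).resolve_left nQ) with h | h
    · have e := sub_eq_zero.1 h
      subst e
      have : (b1 - c1) * (c2 - a2) = 0 := by linear_combination h2
      exact hac (by rw [sub_eq_zero.1 ((mul_eq_zero.1 this).resolve_left hs)])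
    · have e := sub_eq_zero.1 h
      subst e
      have : (c1 - a1) * (c2 - b2) = 0 := by linear_combination h2
      exact hbc (by rw [sub_eq_zero.1 ((mul_eq_zero.1 this).resolve_left hs)])

end Vale.Agent.P036
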