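import Mathlib
import Vale.Agent.P036.Grp

namespace Vale.Agent.P036

open Finset

lemma exists_crt {q l : ℕ} (hq : 0 < q) (hl : 0 < l) (h : q.Coprime l) :
    ∃ c : ZMod q → ZMod l → ℤ, ∀ a b, 0 ≤ c a b ∧ c a b < (q * l : ℕ) ∧ (c a b : ZMod q) = a ∧
      (c a b : ZMod l) = b := by
  have : NeZero q := ⟨hq.ne'⟩
  have : NeZero l := ⟨hl.ne'⟩
  refine ⟨fun a b => ((Nat.chineseRemainder h a.val b.val : ℕ) : ℤ), fun a b =>
    ⟨by positivity, ?_, ?_, ?_⟩⟩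
  · exact Int.ofNat_lt.2 (Nat.chineseRemainder_lt_mul h a.val b.val hq.ne' hl.ne')
  · have := (ZMod.natCast_eq_natCast_iff _ _ _).2 (Nat.chineseRemainder h a.val b.val).2.1
    simpa using this
  · have := (ZMod.natCast_eq_natCast_iff _ _ _).2 (Nat.chineseRemainder h a.val b.val).2.2
    simpa using this

def tr {R : Type} (u v w : V3 R) : Tri R := (![u 0, v 0, w 0], ![u 1, v 1, w 1], ![u 2, v 2, w 2])

lemma tr_inj {R : Type} {u v w u' v' w' : V3 R} (h : tr u v w = tr u' v' w') :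
    u = u' ∧ v = v' ∧ w = w' := by
  simp only [tr, Prod.mk.injEq] at h
  obtain ⟨h0, h1, h2⟩ := h
  exact ⟨ext3 (congrFun h0 0) (congrFun h1 0) (congrFun h2 0),
    ext3 (congrFun h0 1) (congrFun h1 1) (congrFun h2 1),
    ext3 (congrFun h0 2) (congrFun h1 2) (congrFun h2 2)⟩

lemma d3_tr {R : Type} [CommRing R] (u v w : V3 R) :
    d3 (tr u v w).1 (tr u v w).2.1 (tr u v w).2.2 = d3 u v w := by
  simp [tr, d3, dt]; ring

section
variable {q l : ℕ} [Fact q.Prime] [Fact l.Prime]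

abbrev Om (q l : ℕ) := Tri (ZMod q) × Tri (ZMod l) × V3 (ZMod l)

def Omega (q l : ℕ) [Fact q.Prime] [Fact l.Prime] : Finset (Om q l) :=
  SL (ZMod q) ×ˢ SL (ZMod l) ×ˢ univ

/-- a lifting of residue pairs to the box -/
structure Lift (q l : ℕ) where
  v : V3 (ZMod q) → V3 (ZMod l) → V3 ℤ
  b0 : ∀ a b, 0 ≤ v a b 0 ∧ v a b 0 < (q * l : ℕ)
  b1 : ∀ a b, 0 ≤ v a b 1 ∧ v a b 1 < (q * l : ℕ)
  b2 : ∀ a b, ((q * l : ℕ) : ℤ) ≤ v a b 2 ∧ v a b 2 < 2 * (q * l : ℕ)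
  mq : ∀ a b j, (v a b j : ZMod q) = a j
  ml : ∀ a b j, (v a b j : ZMod l) = b j

lemma exists_lift (h : q ≠ l) : Nonempty (Lift q l) := by
  have hq : q.Prime := Fact.out
  have hl : l.Prime := Fact.out
  obtain ⟨c, hc⟩ := exists_crt hq.pos hl.pos ((Nat.coprime_primes hq hl).2 h)
  refine ⟨⟨fun a b => ![c (a 0) (b 0), c (a 1) (b 1), c (a 2) (b 2) + (q * l : ℕ)],
    fun a b => ⟨(hc _ _).1, (hc _ _).2.1⟩, fun a b => ⟨(hc _ _).1, (hc _ _).2.1⟩, fun a b => ?_,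
    fun a b j => ?_, fun a b j => ?_⟩⟩
  · have := hc (a 2) (b 2)
    simp only [Matrix.cons_val]
    constructor <;> linarith [this.1, this.2.1]
  · fin_cases j <;> simp [(hc _ _).2.2.1]
  · fin_cases j <;> simp [(hc _ _).2.2.2]

variable (L : Lift q l)

def pt (ω : Om q l) (ρ : V3 (ZMod q)) (p : V3 (ZMod l)) : V3 ℤ :=
  L.v (act ω.1 ρ) (act ω.2.1 p + ω.2.2)

lemma pt_nn (ω : Om q l) (ρ : V3 (ZMod q)) (p : V3 (ZMod l)) (j : Fin 3) :
    0 ≤ pt L ω ρ p j ∧ pt L ω ρ p j ≤ (2 * (q * l) : ℕ) := by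
  have h0 := L.b0 (act ω.1 ρ) (act ω.2.1 p + ω.2.2)
  have h1 := L.b1 (act ω.1 ρ) (act ω.2.1 p + ω.2.2)
  have h2 := L.b2 (act ω.1 ρ) (act ω.2.1 p + ω.2.2)
  unfold pt
  fin_cases j <;> simp only [Fin.zero_eta, Fin.mk_one, Fin.reduceFinMk] <;> omega

lemma pt_abs (ω : Om q l) (ρ : V3 (ZMod q)) (p : V3 (ZMod l)) (j : Fin 3) :
    |pt L ω ρ p j| ≤ (2 * (q * l) : ℕ) := by
  have := pt_nn L ω ρ p j
  rw [abs_of_nonneg this.1]; exact this.2

variable {ρ1 ρ2 ρ3 : V3 (ZMod q)} {p1 p2 p3 : V3 (ZMod l)}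

lemma act_sub {R : Type} [CommRing R] (g : Tri R) (u v : V3 R) :
    act g (u - v) = act g u - act g v := by
  refine ext3 ?_ ?_ ?_ <;> simp [dt] <;> ring

lemma fib (hp : cr (p2 - p1) (p3 - p1) ≠ 0) (S : Finset (Om q l)) (hS : S ⊆ Omega q l)
    (ψ : Om q l → Tri ℤ) (hψ : ∀ ω ∈ S, ∀ ω' ∈ S, ψ ω = ψ ω' → pt L ω ρ1 p1 = pt L ω' ρ1 p1 ∧
      pt L ω ρ2 p2 = pt L ω' ρ2 p2 ∧ pt L ω ρ3 p3 = pt L ω' ρ3 p3) (s : ℕ)
    (hs : ∀ a b c, ((SL (ZMod q)).filter fun g => act g ρ1 = a ∧ act g ρ2 = b ∧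
      act g ρ3 = c).card ≤ s) :
    S.card ≤ s * l ^ 2 * (S.image ψ).card := by
  refine card_le_mul_card_image S _ fun t ht => ?_
  obtain ⟨ω0, h0, rfl⟩ := mem_image.1 ht
  have key : ∀ ω ∈ S, ψ ω = ψ ω0 → (act ω.1 ρ1 = act ω0.1 ρ1 ∧ act ω.1 ρ2 = act ω0.1 ρ2 ∧
      act ω.1 ρ3 = act ω0.1 ρ3) ∧ act ω.2.1 p1 + ω.2.2 = act ω0.2.1 p1 + ω0.2.2 ∧
      act ω.2.1 p2 + ω.2.2 = act ω0.2.1 p2 + ω0.2.2 ∧
      act ω.2.1 p3 + ω.2.2 = act ω0.2.1 p3 + ω0.2.2 := by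
    intro ω hω e
    have k : ∀ ρ p, pt L ω ρ p = pt L ω0 ρ p → act ω.1 ρ = act ω0.1 ρ ∧
        act ω.2.1 p + ω.2.2 = act ω0.2.1 p + ω0.2.2 := by
      intro ρ p e
      constructor <;> funext j
      · exact (L.mq _ (act ω.2.1 p + ω.2.2) j).symm.trans
          ((congrArg (Int.cast : ℤ → ZMod q) (congrFun e j)).trans (L.mq _ _ j))
      · exact (L.ml (act ω.1 ρ) _ j).symm.trans
          ((congrArg (Int.cast : ℤ → ZMod l) (congrFun e j)).trans (L.ml _ _ j))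
    obtain ⟨e1, e2, e3⟩ := hψ ω hω ω0 h0 e
    exact ⟨⟨(k _ _ e1).1, (k _ _ e2).1, (k _ _ e3).1⟩, (k _ _ e1).2, (k _ _ e2).2, (k _ _ e3).2⟩
  have h2 := G2 hp (act ω0.2.1 (p2 - p1)) (act ω0.2.1 (p3 - p1))
  rw [ZMod.card] at h2
  refine le_trans ?_ (Nat.mul_le_mul (hs (act ω0.1 ρ1) (act ω0.1 ρ2) (act ω0.1 ρ3)) h2)
  rw [← card_product]
  refine card_le_card_of_injOn (fun ω => (ω.1, ω.2.1)) ?_ ?_
  · intro ω hω
    obtain ⟨h1, h2⟩ := mem_filter.1 (mem_coe.1 hω)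
    obtain ⟨k1, k2, k3, k4⟩ := key ω h1 h2
    obtain ⟨m1, m2⟩ := mem_product.1 (hS h1)
    refine mem_coe.2 (mem_product.2 ⟨mem_filter.2 ⟨m1, k1⟩,
      mem_filter.2 ⟨(mem_product.1 m2).1, ?_, ?_⟩⟩)
    · rw [act_sub, act_sub]; linear_combination k3 - k2
    · rw [act_sub, act_sub]; linear_combination k4 - k2
  · intro ω hω ω' hω' e
    obtain ⟨h1, h2⟩ := mem_filter.1 (mem_coe.1 hω)
    obtain ⟨h1', h2'⟩ := mem_filter.1 (mem_coe.1 hω')
    obtain ⟨e1, e2⟩ := Prod.mk.inj e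
    have := (key ω h1 h2).2.1.trans (key ω' h1' h2').2.1.symm
    rw [e2] at this
    exact Prod.ext e1 (Prod.ext e2 (add_left_cancel this))

lemma pt_det {ω : Om q l} (hω : ω ∈ Omega q l) :
    ((d3 (pt L ω ρ1 p1) (pt L ω ρ2 p2) (pt L ω ρ3 p3) : ℤ) : ZMod q) = d3 ρ1 ρ2 ρ3 := by
  have := d3_act ω.1 ρ1 ρ2 ρ3
  rw [mem_SL.1 (mem_product.1 hω).1, one_mul] at this
  rw [← this]
  simp only [d3, dt, cr0, cr1, cr2, pt]
  push_cast
  simp only [L.mq]

lemma pt_AI (hp : cr (p2 - p1) (p3 - p1) ≠ 0) {ω : Om q l} (hω : ω ∈ Omega q l) :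
    cr (pt L ω ρ2 p2 - pt L ω ρ1 p1) (pt L ω ρ3 p3 - pt L ω ρ1 p1) ≠ 0 := by
  intro h
  apply hp
  have hg := mem_SL.1 (mem_product.1 (mem_product.1 hω).2).1
  have e : cr (act ω.2.1 (p2 - p1)) (act ω.2.1 (p3 - p1)) = 0 := by
    have h0 := congrArg (Int.cast : ℤ → ZMod l) (congrFun h 0)
    have h1 := congrArg (Int.cast : ℤ → ZMod l) (congrFun h 1)
    have h2 := congrArg (Int.cast : ℤ → ZMod l) (congrFun h 2)
    simp only [cr0, cr1, cr2, pt, Pi.sub_apply, Pi.zero_apply] at h0 h1 h2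
    push_cast at h0 h1 h2
    simp only [L.ml, Pi.add_apply, add_sub_add_right_eq_sub] at h0 h1 h2
    rw [act_sub, act_sub]
    exact ext3 h0 h1 h2
  have k : ∀ t, d3 (p2 - p1) (p3 - p1) t = 0 := by
    intro t
    have := d3_act ω.2.1 (p2 - p1) (p3 - p1) t
    rw [hg, one_mul, d3, e] at this
    rw [← this]; simp [dt]
  have h0 := k ![1, 0, 0]
  have h1 := k ![0, 1, 0]
  have h2 := k ![0, 0, 1]
  simp only [d3, dt, Matrix.cons_val_zero, Matrix.cons_val_one, Matrix.cons_val, mul_one,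
    mul_zero, add_zero, zero_add] at h0 h1 h2
  exact ext3 h0 h1 h2

lemma AI_tr {u v w : V3 ℤ} (h : cr (v - u) (w - u) ≠ 0) : AI (fun _ => 1) (tr u v w) := by
  by_contra hc
  simp only [AI, not_or, not_not, tr, dt, cr0, cr1, cr2, Matrix.cons_val_zero, Matrix.cons_val_one,
    Matrix.cons_val] at hc
  obtain ⟨h1, h2, h3⟩ := hc
  apply h
  refine ext3 ?_ ?_ ?_ <;> simp only [cr0, cr1, cr2, Pi.sub_apply, Pi.zero_apply]
  · linear_combination h2
  · linear_combination -h3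
  · linear_combination h1

lemma box_tr (ω : Om q l) : BoxT (fun _ => 2 * (q * l))
    (tr (pt L ω ρ1 p1) (pt L ω ρ2 p2) (pt L ω ρ3 p3)) := by
  refine ⟨fun j => ?_, fun j => ?_, fun j => ?_⟩ <;> fin_cases j <;> exact pt_abs L _ _ _ _

def Bad (T : ℝ) (ρ1 ρ2 ρ3 : V3 (ZMod q)) (p1 p2 p3 : V3 (ZMod l)) (ω : Om q l) : Prop :=
  |((d3 (pt L ω ρ1 p1) (pt L ω ρ2 p2) (pt L ω ρ3 p3) : ℤ) : ℝ)| < T

lemma small_eq {a b : ℤ} {T : ℝ} (hT : 2 * T ≤ q) (ha : |(a : ℝ)| < T) (hb : |(b : ℝ)| < T)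
    (h : (a : ZMod q) = b) : a = b := by
  have d := (ZMod.intCast_eq_intCast_iff_dvd_sub a b q).1 h
  have : |((b - a : ℤ) : ℝ)| < q := by
    push_cast
    have := abs_sub (b : ℝ) a
    linarith
  have h2 : |b - a| < q := by exact_mod_cast this
  have := Int.eq_zero_of_abs_lt_dvd d h2
  omega

open Classical in
lemma badA (hp : cr (p2 - p1) (p3 - p1) ≠ 0) {T : ℝ} (hT : 2 * T ≤ q)
    (hpair : cr ρ1 ρ2 ≠ 0 ∨ cr ρ2 ρ3 ≠ 0 ∨ cr ρ1 ρ3 ≠ 0)
    (hker : ∀ c : V3 (ZMod q), c 0 • ρ1 + c 1 • ρ2 + c 2 • ρ3 = 0 → c 0 + c 1 + c 2 = 0) :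
    (((Omega q l).filter (Bad L T ρ1 ρ2 ρ3 p1 p2 p3)).card : ℝ) ≤
      1764 ^ 3 * ((q * l : ℕ) : ℝ) ^ 6 * l ^ 2 * Lg (q * l) ^ 3 := by
  have hq : q.Prime := Fact.out
  have hl : l.Prime := Fact.out
  have hN : 1 ≤ q * l := Nat.mul_pos hq.pos hl.pos
  have q0 : (0 : ℝ) < q := by exact_mod_cast hq.pos
  have Lg0 : 0 ≤ Lg (q * l) := by
    have := Real.log_nonneg (x := ((2 * (2 * (q * l)) ^ 2 : ℕ) : ℝ) + 1)
      (le_add_of_nonneg_left (Nat.cast_nonneg _))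
    unfold Lg; positivity
  set S := (Omega q l).filter (Bad L T ρ1 ρ2 ρ3 p1 p2 p3) with hS
  let ψ : Om q l → Tri ℤ := fun ω => tr (pt L ω ρ1 p1) (pt L ω ρ2 p2) (pt L ω ρ3 p3)
  have F := fib L (ρ1 := ρ1) (ρ2 := ρ2) (ρ3 := ρ3) hp S (filter_subset _ _) ψ
    (fun ω _ ω' _ e => tr_inj e)
  by_cases hd : d3 ρ1 ρ2 ρ3 = 0
  · have F' := F (q ^ 2) (fun a b c => by
      rcases hpair with h | h | h
      · refine le_trans (card_le_card ?_) ((G2 h a b).trans (by rw [ZMod.card]))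
        exact monotone_filter_right _ fun g _ h => ⟨h.1, h.2.1⟩
      · refine le_trans (card_le_card ?_) ((G2 h b c).trans (by rw [ZMod.card]))
        exact monotone_filter_right _ fun g _ h => ⟨h.2.1, h.2.2⟩
      · refine le_trans (card_le_card ?_) ((G2 h a c).trans (by rw [ZMod.card]))
        exact monotone_filter_right _ fun g _ h => ⟨h.1, h.2.2⟩)
    have C := countII hN hq.pos (S.image ψ)
      (univ.filter fun c : V3 (ZMod q) => c 0 • ρ1 + c 1 • ρ2 + c 2 • ρ3 = 0) (by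
        rcases hpair with h | h | h
        · exact (ker_card h ρ3 0 1 2 fun a b h0 h1 h2 => ext3 h0 h1 h2).trans (by rw [ZMod.card])
        · refine le_trans (le_of_eq ?_) ((ker_card h ρ1 1 2 0
            fun a b h1 h2 h0 => ext3 h0 h1 h2).trans (by rw [ZMod.card]))
          congr 1; ext c; simp only [mem_filter]; rw [add_rotate]
        · refine le_trans (le_of_eq ?_) ((ker_card h ρ2 0 2 1
            fun a b h0 h2 h1 => ext3 h0 h1 h2).trans (by rw [ZMod.card]))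
          congr 1; ext c; simp only [mem_filter]; rw [add_right_comm])
      (fun c hc => hker c (mem_filter.1 hc).2) (by
        intro τ hτ
        obtain ⟨ω, hω, rfl⟩ := mem_image.1 hτ
        obtain ⟨h1, h2⟩ := mem_filter.1 hω
        refine ⟨box_tr L ω, ?_, AI_tr (pt_AI L hp h1), fun κ k0 k1 k2 => ?_⟩
        · rw [d3_tr]
          refine small_eq hT h2 (by simpa using (abs_nonneg _).trans_lt h2) ?_
          rw [pt_det L h1, hd]; simp
        · refine mem_filter.2 ⟨mem_univ _, act_inj0 (mem_SL.1 (mem_product.1 h1).1) ?_⟩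
          have c0 := congrArg (Int.cast : ℤ → ZMod q) k0
          have c1 := congrArg (Int.cast : ℤ → ZMod q) k1
          have c2 := congrArg (Int.cast : ℤ → ZMod q) k2
          simp only [ψ, tr, dt, pt, Matrix.cons_val_zero, Matrix.cons_val_one, Matrix.cons_val]
            at c0 c1 c2
          push_cast at c0 c1 c2
          simp only [L.mq, act0, act1, act2, dt] at c0 c1 c2
          refine ext3 ?_ ?_ ?_ <;>
            simp only [act0, act1, act2, dt, Pi.add_apply, Pi.smul_apply, smul_eq_mul, Pi.zero_apply]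
          · linear_combination c0
          · linear_combination c1
          · linear_combination c2)
    have F'' : (S.card : ℝ) ≤ q ^ 2 * l ^ 2 * (S.image ψ).card := by exact_mod_cast F'
    refine F''.trans ((mul_le_mul_of_nonneg_left C (by positivity)).trans (le_of_eq ?_))
    field_simp
  · have F' := F 1 (G3 hd)
    have F'' : (S.card : ℝ) ≤ l ^ 2 * (S.image ψ).card := by exact_mod_cast (by simpa using F')
    rcases S.eq_empty_or_nonempty with h | ⟨ω0, h0⟩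
    · rw [h]; simp only [card_empty, Nat.cast_zero]; positivity
    obtain ⟨h01, h02⟩ := mem_filter.1 h0
    have C := countI hN (S.image ψ) (D := d3 (pt L ω0 ρ1 p1) (pt L ω0 ρ2 p2) (pt L ω0 ρ3 p3))
      (fun h => hd (by rw [← pt_det L h01, h]; simp)) (by
        intro τ hτ
        obtain ⟨ω, hω, rfl⟩ := mem_image.1 hτ
        obtain ⟨h1, h2⟩ := mem_filter.1 hω
        refine ⟨box_tr L ω, ?_⟩
        rw [d3_tr]
        exact small_eq hT h2 h02 (by rw [pt_det L h1, pt_det L h01]))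
    refine F''.trans ((mul_le_mul_of_nonneg_left C (by positivity)).trans ?_)
    have : (0 : ℝ) ≤ ((q * l : ℕ) : ℝ) ^ 6 * l ^ 2 * Lg (q * l) ^ 3 := by positivity
    nlinarith

open Classical in
lemma badB {ρ : V3 (ZMod q)} (hp : cr (p2 - p1) (p3 - p1) ≠ 0) {T : ℝ} (hT : 2 * T ≤ q)
    (hρ : ρ ≠ 0) :
    (((Omega q l).filter (Bad L T ρ ρ ρ p1 p2 p3)).card : ℝ) ≤
      784 ^ 3 * (q : ℝ) ^ 7 * l ^ 8 * Lg (q * l) ^ 3 := by
  have hq : q.Prime := Fact.out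
  have hl : l.Prime := Fact.out
  have q0 : (0 : ℤ) < q := by exact_mod_cast hq.pos
  set S := (Omega q l).filter (Bad L T ρ ρ ρ p1 p2 p3) with hS
  have dv : ∀ (ω : Om q l) (p p' : V3 (ZMod l)), ∃ w : V3 ℤ,
      (∀ j, pt L ω ρ p' j = pt L ω ρ p j + q * w j) ∧ ∀ j, |w j| ≤ (2 * l : ℕ) := by
    intro ω p p'
    have : ∀ j, ∃ w : ℤ, pt L ω ρ p' j - pt L ω ρ p j = q * w := fun j =>
      (ZMod.intCast_eq_intCast_iff_dvd_sub _ _ q).1 (by simp only [pt, L.mq])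
    choose w hw using this
    refine ⟨w, fun j => by linarith [hw j], fun j => ?_⟩
    have a1 := pt_nn L ω ρ p j
    have a2 := pt_nn L ω ρ p' j
    have a3 : (q : ℤ) * |w j| ≤ q * (2 * l : ℕ) := by
      rw [← abs_of_pos q0, ← abs_mul, abs_of_pos q0, ← hw, abs_le]
      push_cast at *
      constructor <;> linarith [a1.1, a1.2, a2.1, a2.2]
    exact le_of_mul_le_mul_left a3 q0
  choose w hw hwb using dv
  let ψ : Om q l → Tri ℤ := fun ω => tr (pt L ω ρ p1) (w ω p1 p2) (w ω p1 p3)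
  have F := fib L (ρ1 := ρ) (ρ2 := ρ) (ρ3 := ρ) hp S (filter_subset _ _) ψ
    (fun ω _ ω' _ e => by
      obtain ⟨e1, e2, e3⟩ := tr_inj e
      refine ⟨e1, funext fun j => ?_, funext fun j => ?_⟩
      · rw [hw ω p1, hw ω' p1, e1, e2]
      · rw [hw ω p1, hw ω' p1, e1, e3]) (q ^ 5) (fun a b c => by
      refine le_trans (card_le_card ?_) ((G1 hρ a).trans (by rw [ZMod.card]))
      exact monotone_filter_right _ fun g _ h => h.1)
  have C := countIII hq.pos hl.pos (S.image ψ) (by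
    intro τ hτ
    obtain ⟨ω, hω, rfl⟩ := mem_image.1 hτ
    obtain ⟨h1, h2⟩ := mem_filter.1 hω
    refine ⟨?_, ?_, ?_⟩
    · refine ⟨fun j => ?_, fun j => ?_, fun j => ?_⟩ <;> fin_cases j <;>
        first | exact pt_abs L _ _ _ _ | exact hwb _ _ _ _
    · rw [d3_tr]
      have a1 : d3 (pt L ω ρ p1) (pt L ω ρ p2) (pt L ω ρ p3) = 0 := by
        refine small_eq hT h2 (by simpa using (abs_nonneg _).trans_lt h2) ?_
        rw [pt_det L h1]; simp only [d3, dt, cr0, cr1, cr2]; push_cast; ring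
      apply mul_left_cancel₀ (pow_ne_zero 2 q0.ne')
      simp only [d3, dt, cr0, cr1, cr2, hw ω p1 p2, hw ω p1 p3] at a1 ⊢
      linear_combination a1
    · have a1 := pt_AI L (ρ1 := ρ) (ρ2 := ρ) (ρ3 := ρ) hp h1
      by_contra hc
      simp only [ψ, AI, not_or, not_not, tr, dt, cr0, cr1, cr2, Matrix.cons_val_zero,
        Matrix.cons_val_one, Matrix.cons_val] at hc
      obtain ⟨c1, c2, c3⟩ := hc
      apply a1
      refine ext3 ?_ ?_ ?_ <;>
        simp only [cr0, cr1, cr2, Pi.sub_apply, Pi.zero_apply, hw ω p1 p2, hw ω p1 p3]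
      · linear_combination (q : ℤ) ^ 2 * c2
      · linear_combination -(q : ℤ) ^ 2 * c3
      · linear_combination (q : ℤ) ^ 2 * c1)
  have F'' : (S.card : ℝ) ≤ q ^ 5 * l ^ 2 * (S.image ψ).card := by exact_mod_cast F
  refine F''.trans ((mul_le_mul_of_nonneg_left C (by positivity)).trans (le_of_eq ?_))
  ring

lemma Omega_card (hq : 4 ≤ q) (hl : 4 ≤ l) :
    (q : ℝ) ^ 8 * l ^ 11 ≤ 4 * (Omega q l).card := by
  have h1 := G0 (F := ZMod q) (by rwa [ZMod.card])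
  have h2 := G0 (F := ZMod l) (by rwa [ZMod.card])
  rw [ZMod.card] at h1 h2
  simp only [Omega, card_product, card_univ, Fintype.card_fun, ZMod.card, Fintype.card_fin]
  push_cast
  calc (q : ℝ) ^ 8 * (l : ℝ) ^ 11 = (q : ℝ) ^ 8 * (l : ℝ) ^ 8 * (l : ℝ) ^ 3 := by ring
    _ ≤ (2 * ((SL (ZMod q)).card : ℝ)) * (2 * ((SL (ZMod l)).card : ℝ)) * (l : ℝ) ^ 3 := by gcongr
    _ = _ := by ring

end

end Vale.Agent.P036
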