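import Mathlib
import Vale.Agent.P036.Lat

namespace Vale.Agent.P036

open Finset

abbrev I0 := Equiv.Perm (Fin 9) × Finset (Fin 9)
abbrev I1 := (I0 × I0 × I0) ⊕ Fin 9

lemma fam0 (r : ℕ) [Fact r.Prime] : ∃ f g : I0 → GaloisField r 9 → ZMod r,
    ∀ a b, ∑ i, f i a * g i b = Algebra.norm (ZMod r) (a - b) := by
  let bs : Module.Basis (Fin 9) (ZMod r) (GaloisField r 9) :=
    Module.finBasisOfFinrankEq _ _ (GaloisField.finrank r (by norm_num))
  let Mx := Algebra.leftMulMatrix bs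
  refine ⟨fun i a => (Equiv.Perm.sign i.1 : ℤ) * ∏ j ∈ i.2, Mx a (i.1 j) j,
    fun i b => ∏ j ∈ univ \ i.2, -Mx b (i.1 j) j, fun a b => ?_⟩
  rw [Algebra.norm_eq_matrix_det bs, Matrix.det_apply', Fintype.sum_prod_type]
  refine sum_congr rfl fun σ _ => ?_
  simp only [map_sub, Matrix.sub_apply, sub_eq_add_neg (Algebra.leftMulMatrix bs a _ _)]
  rw [prod_add, powerset_univ, mul_sum]
  refine sum_congr rfl fun S _ => ?_
  simp only [Mx, mul_assoc]

lemma fam1 (r : ℕ) [Fact r.Prime] (hr : 3 < r) :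
    ∃ Fx Gy Hz : GaloisField r 9 → I1 → ZMod r,
      (∀ a b c, a ≠ b → a ≠ c → b ≠ c → ∑ l, d3 ![Fx a l, Fx b l, Fx c l] ![Gy a l, Gy b l, Gy c l]
        ![Hz a l, Hz b l, Hz c l] ≠ 0) ∧
      ∀ a b, a ≠ b → ∃ l, Gy a l * Hz b l ≠ Gy b l * Hz a l := by
  obtain ⟨f, g, hfg⟩ := fam0 r
  let bs : Module.Basis (Fin 9) (ZMod r) (GaloisField r 9) :=
    Module.finBasisOfFinrankEq _ _ (GaloisField.finrank r (by norm_num))
  let ω : GaloisField r 9 → GaloisField r 9 → ZMod r := fun a b => Algebra.norm (ZMod r) (a - b)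
  have anti : ∀ a b, ω b a = -ω a b := by
    intro a b
    have : b - a = algebraMap (ZMod r) _ (-1) * (a - b) := by simp
    simp only [ω]
    rw [this, map_mul, Algebra.norm_algebraMap, GaloisField.finrank r (by norm_num)]
    ring
  have nz : ∀ a b, a ≠ b → ω a b ≠ 0 := fun a b h =>
    Algebra.norm_ne_zero_iff.2 (sub_ne_zero.2 h)
  have key : ∀ a b c, ∑ l : I0 × I0 × I0, (f l.1 a * g l.2.2 a) * (g l.1 b * f l.2.1 b) *
      (g l.2.1 c * f l.2.2 c) = ω a b * ω b c * ω c a := by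
    intro a b c
    simp only [ω, ← hfg]
    rw [mul_assoc, sum_mul_sum univ univ (fun i => f i b * g i c), ← Fintype.sum_prod_type',
      sum_mul_sum, ← Fintype.sum_prod_type']
    refine sum_congr rfl fun l _ => by ring
  refine ⟨fun a => Sum.elim (fun l => f l.1 a * g l.2.2 a) (fun _ => 0),
    fun a => Sum.elim (fun l => g l.1 a * f l.2.1 a) (fun i => bs.repr a i),
    fun a => Sum.elim (fun l => g l.2.1 a * f l.2.2 a) (fun _ => 1), ?_, ?_⟩
  · intro a b c hab hac hbc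
    rw [Fintype.sum_sum_type]
    simp only [Sum.elim_inl, Sum.elim_inr, d3, dt, cr0, cr1, cr2, Matrix.cons_val_zero,
      Matrix.cons_val_one, Matrix.cons_val, zero_mul, sub_self, add_zero, sum_const_zero]
    have e : ∀ x0 x1 x2 y0 y1 y2 z0 z1 z2 : ZMod r, (x1 * y2 - x2 * y1) * z0 +
        (x2 * y0 - x0 * y2) * z1 + (x0 * y1 - x1 * y0) * z2 =
        x1 * y2 * z0 - x2 * y1 * z0 + x2 * y0 * z1 - x0 * y2 * z1 + x0 * y1 * z2 - x1 * y0 * z2 := by
      intros; ring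
    simp only [e, sum_add_distrib, sum_sub_distrib, key]
    rw [anti a b, anti a c, anti b c]
    have h6 : (6 : ZMod r) ≠ 0 := by
      intro h
      have : r ∣ 6 := (ZMod.natCast_eq_zero_iff 6 r).1 (by exact_mod_cast h)
      have h5 := Nat.le_of_dvd (by norm_num) this
      have hp : r.Prime := Fact.out
      interval_cases r
      · omega
      · omega
      · exact absurd hp (by norm_num)
    have := mul_ne_zero h6 (mul_ne_zero (nz a b hab) (mul_ne_zero (nz a c hac) (nz b c hbc)))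
    intro h
    apply this
    linear_combination -h
  · intro a b hab
    by_contra hc
    push Not at hc
    apply hab
    apply bs.repr.injective
    ext i
    simpa using hc (Sum.inr i)

lemma fam : ∃ M : ℕ, 1 ≤ M ∧ ∀ r : ℕ, r.Prime → 3 < r → ∃ Fx Gy Hz : Fin (r ^ 9) → Fin M → ℤ,
    (∀ a l, |Fx a l| ≤ r ∧ |Gy a l| ≤ r ∧ |Hz a l| ≤ r) ∧
    (∀ a b c, a ≠ b → a ≠ c → b ≠ c → ∑ l, d3 ![Fx a l, Fx b l, Fx c l] ![Gy a l, Gy b l, Gy c l]
        ![Hz a l, Hz b l, Hz c l] ≠ 0) ∧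
      ∀ a b, a ≠ b → ∃ l, Gy a l * Hz b l ≠ Gy b l * Hz a l := by
  obtain ⟨M, hM, ⟨e⟩⟩ : ∃ M, 1 ≤ M ∧ Nonempty (Fin M ≃ I1) :=
    ⟨Fintype.card I1, Fintype.card_pos_iff.2 ⟨Sum.inr 0⟩, ⟨(Fintype.equivFin I1).symm⟩⟩
  refine ⟨M, hM, fun r hp hr => ?_⟩
  have : Fact r.Prime := ⟨hp⟩
  obtain ⟨Fx, Gy, Hz, h1, h2⟩ := fam1 r hr
  let k : Fin (r ^ 9) ≃ GaloisField r 9 :=
    (Finite.equivFinOfCardEq (GaloisField.card r 9 (by norm_num))).symm
  have bd : ∀ x : ZMod r, |(x.val : ℤ)| ≤ r := fun x => by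
    rw [abs_of_nonneg (by positivity)]; exact_mod_cast (ZMod.val_lt x).le
  refine ⟨fun a l => (Fx (k a) (e l)).val, fun a l => (Gy (k a) (e l)).val,
    fun a l => (Hz (k a) (e l)).val, fun a l => ⟨bd _, bd _, bd _⟩, ?_, ?_⟩
  · intro a b c hab hac hbc h
    apply h1 (k a) (k b) (k c) (k.injective.ne hab) (k.injective.ne hac) (k.injective.ne hbc)
    have := congrArg (Int.cast : ℤ → ZMod r) h
    rw [← e.sum_comp]
    simpa [d3, dt] using this
  · intro a b hab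
    obtain ⟨l, hl⟩ := h2 (k a) (k b) (k.injective.ne hab)
    refine ⟨e.symm l, fun h => hl ?_⟩
    have := congrArg (Int.cast : ℤ → ZMod r) h
    simpa using this

/-! digits -/

def Near (q : ℕ) (E a b : ℝ) : Prop := ∃ k : ℤ, |a - k * q - b| ≤ E

lemma Near.mono {q : ℕ} {E E' a b : ℝ} (h : Near q E a b) (hE : E ≤ E') : Near q E' a b := by
  obtain ⟨k, hk⟩ := h; exact ⟨k, hk.trans hE⟩

lemma Near.add {q : ℕ} {E E' a b a' b' : ℝ} (h : Near q E a b) (h' : Near q E' a' b') :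
    Near q (E + E') (a + a') (b + b') := by
  obtain ⟨k, hk⟩ := h
  obtain ⟨k', hk'⟩ := h'
  refine ⟨k + k', ?_⟩
  have := abs_add_le (a - k * q - b) (a' - k' * q - b')
  push_cast
  rw [show a + a' - (k + k') * q - (b + b') = a - k * q - b + (a' - k' * q - b') by ring]
  linarith

lemma Near.smul {q : ℕ} {E a b C : ℝ} (h : Near q E a b) (c : ℤ) (hc : |(c : ℝ)| ≤ C) :
    Near q (C * E) (c * a) (c * b) := by
  obtain ⟨k, hk⟩ := h
  refine ⟨c * k, ?_⟩
  push_cast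
  rw [show c * a - c * k * q - c * b = c * (a - k * q - b) by ring, abs_mul]
  exact mul_le_mul hc hk (abs_nonneg _) ((abs_nonneg _).trans hc)

lemma Near.neg {q : ℕ} {E a b : ℝ} (h : Near q E a b) : Near q E (-a) (-b) := by
  simpa using h.smul (-1) (C := 1) (by simp)

lemma Near.sum {q : ℕ} {ι : Type} (s : Finset ι) {E : ℝ} {a b : ι → ℝ}
    (h : ∀ i ∈ s, Near q E (a i) (b i)) : Near q (s.card * E) (∑ i ∈ s, a i) (∑ i ∈ s, b i) := by
  classical
  induction s using Finset.induction_on with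
  | empty => exact ⟨0, by simp⟩
  | insert i s hi ih =>
    rw [sum_insert hi, sum_insert hi, card_insert_of_notMem hi]
    have := (h i (mem_insert_self _ _)).add (ih fun j hj => h j (mem_insert_of_mem hj))
    convert this using 1
    push_cast; ring

lemma Near.far {q : ℕ} {B E a : ℝ} {Φ : ℤ} (h : Near q E a (Φ * (q / B))) (hB : 2 ≤ B)
    (hΦ : Φ ≠ 0) (hΦB : 2 * |(Φ : ℝ)| ≤ B) (hE : E ≤ q / (2 * B)) (k' : ℤ) :
    q / (2 * B) ≤ |a + k' * q| := by
  obtain ⟨k, hk⟩ := h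
  have q0 : (0 : ℝ) ≤ q := Nat.cast_nonneg q
  have B0 : 0 < B := by linarith
  have e1 : q / B = 2 * (q / (2 * B)) := by field_simp
  have t0 : 0 ≤ q / (2 * B) := by positivity
  have Φ1 : (1 : ℝ) ≤ |(Φ : ℝ)| := by exact_mod_cast Int.one_le_abs hΦ
  have a1 : |(Φ : ℝ) * (q / B)| = |(Φ : ℝ)| * (q / B) := by
    rw [abs_mul, abs_of_nonneg (by positivity : 0 ≤ q / B)]
  have a2 : 2 * (q / (2 * B)) ≤ |(k + k' : ℝ) * q + Φ * (q / B)| := by
    by_cases h0 : k + k' = 0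
    · have : (k + k' : ℝ) = 0 := by exact_mod_cast h0
      rw [this, zero_mul, zero_add, a1, ← e1]
      exact le_mul_of_one_le_left (by positivity) Φ1
    · have b1 : (1 : ℝ) ≤ |(k + k' : ℝ)| := by exact_mod_cast Int.one_le_abs h0
      have b2 : (q : ℝ) ≤ |(k + k' : ℝ) * q| := by
        rw [abs_mul, abs_of_nonneg q0]; exact le_mul_of_one_le_left q0 b1
      have b3 : |(Φ : ℝ)| * (q / B) ≤ q / 2 := by
        rw [mul_div_assoc', div_le_div_iff₀ B0 (by norm_num)]; nlinarith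
      have b4 : q / B ≤ q / 2 := div_le_div_of_nonneg_left q0 (by norm_num) hB
      have := abs_sub (((k + k' : ℝ) * q + Φ * (q / B))) (Φ * (q / B))
      rw [add_sub_cancel_right, a1] at this
      linarith
  have := abs_sub (a + k' * q) (a - k * q - Φ * (q / B))
  rw [show a + k' * q - (a - k * q - Φ * (q / B)) = (k + k' : ℝ) * q + Φ * (q / B) by ring] at this
  linarith

lemma floor_near (q D : ℕ) (hD : 0 < D) :
    ∃ θ : ℝ, 0 ≤ θ ∧ θ ≤ 1 ∧ ((q / D : ℕ) : ℝ) = q / D - θ := by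
  refine ⟨q / D - (q / D : ℕ), sub_nonneg.2 Nat.cast_div_le, ?_, by ring⟩
  have := Nat.lt_floor_add_one ((q : ℝ) / D)
  rw [Nat.floor_div_eq_div] at this
  linarith

lemma near_hi {q B H : ℕ} (hB : 0 < B) (hH : 0 < H) (hBH : B ∣ H) {e j : ℕ} (h : j < e) :
    Near q ((H : ℝ) ^ e) ((H : ℝ) ^ e * (q / (B * H ^ j) : ℕ)) 0 := by
  obtain ⟨θ, t0, t1, e1⟩ := floor_near q (B * H ^ j) (by positivity)
  obtain ⟨c, hc⟩ := hBH
  obtain ⟨d, rfl⟩ := Nat.exists_eq_add_of_lt h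
  refine ⟨c * H ^ d, ?_⟩
  have B0 : (0 : ℝ) < B := by exact_mod_cast hB
  have H0 : (0 : ℝ) < H := by exact_mod_cast hH
  have hc' : (H : ℝ) = B * c := by exact_mod_cast hc
  have : (H : ℝ) ^ (j + d + 1) * (q / (B * H ^ j)) = c * H ^ d * q := by
    rw [pow_succ]; nth_rewrite 2 [hc']; field_simp; ring
  rw [e1]
  push_cast
  rw [mul_sub, this, sub_zero, sub_sub_cancel_left, abs_neg, abs_of_nonneg (by positivity)]
  exact mul_le_of_le_one_right (by positivity) t1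

lemma near_all {q B H : ℕ} (hB : 0 < B) (hH : 0 < H) (hBH : B ∣ H) (e j : ℕ) :
    Near q ((H : ℝ) ^ e + q / (B * H)) ((H : ℝ) ^ e * (q / (B * H ^ j) : ℕ))
      (if e = j then q / B else 0) := by
  have B0 : (0 : ℝ) < B := by exact_mod_cast hB
  have H1 : (1 : ℝ) ≤ H := by exact_mod_cast hH
  have p0 : (0 : ℝ) ≤ q / (B * H) := by positivity
  rcases lt_trichotomy j e with h | h | h
  · rw [if_neg h.ne']
    exact (near_hi hB hH hBH h).mono (by linarith)
  · subst h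
    obtain ⟨θ, t0, t1, e1⟩ := floor_near q (B * H ^ j) (by positivity)
    refine ⟨0, ?_⟩
    have : (H : ℝ) ^ j * (q / (B * H ^ j)) = q / B := by field_simp
    rw [e1, if_pos rfl]
    push_cast
    rw [mul_sub, this, zero_mul, sub_zero, sub_sub_cancel_left, abs_neg,
      abs_of_nonneg (by positivity)]
    have := mul_le_of_le_one_right (by positivity : (0 : ℝ) ≤ H ^ j) t1
    linarith
  · refine ⟨0, ?_⟩
    rw [if_neg h.ne]
    simp only [Int.cast_zero, zero_mul, sub_zero]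
    rw [abs_of_nonneg (by positivity)]
    have a1 : ((q / (B * H ^ j) : ℕ) : ℝ) ≤ q / (B * H ^ (e + 1)) := by
      refine Nat.cast_div_le.trans ?_
      push_cast
      gcongr
      omega
    have a2 : (H : ℝ) ^ e * (q / (B * H ^ (e + 1))) = q / (B * H) := by field_simp; ring
    have a3 := mul_le_mul_of_nonneg_left a1 (by positivity : (0 : ℝ) ≤ H ^ e)
    have : (0 : ℝ) ≤ H ^ e := by positivity
    linarith

def xs {M : ℕ} (H : ℕ) (X : Fin M → ℤ) (τ : ℤ) : ℤ := ∑ l, X l * H ^ (l : ℕ) + τ * H ^ (M ^ 2)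
def ys {M : ℕ} (H : ℕ) (Y : Fin M → ℤ) : ℤ := ∑ m, Y m * H ^ (M * m)
def Cn (q B H j : ℕ) : ℕ := q / (B * H ^ j)
def zs {M : ℕ} (q B H : ℕ) (Z : Fin M → ℤ) : ℤ := ∑ n, Z n * Cn q B H ((n : ℕ) + M * n)

lemma expand {M : ℕ} (x y z : Fin M → ℝ) (t : ℝ) : (∑ l, x l + t) * (∑ m, y m) * ∑ n, z n =
    ∑ l, ∑ m, ∑ n, x l * y m * z n + ∑ m, ∑ n, t * y m * z n := by
  rw [add_mul, add_mul]
  congr 1
  · rw [sum_mul_sum, sum_mul]
    refine sum_congr rfl fun l _ => ?_
    rw [sum_mul_sum]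
  · rw [mul_sum univ y t, sum_mul_sum]

lemma TP {M q B H : ℕ} (hB : 0 < B) (hH : 0 < H) (hBH : B ∣ H) {r F : ℝ} {X Y Z : Fin M → ℤ}
    {τ : ℤ} (hX : ∀ l, |(X l : ℝ)| ≤ r) (hY : ∀ l, |(Y l : ℝ)| ≤ r) (hZ : ∀ l, |(Z l : ℝ)| ≤ r)
    (hτ : |(τ : ℝ)| ≤ F) (hr : 0 ≤ r) :
    Near q (M ^ 3 * (r ^ 3 * (H ^ (M ^ 2) + q / (B * H))) + M ^ 2 * (F * r ^ 2 * H ^ (2 * M ^ 2)))
      ((xs H X τ * ys H Y * zs q B H Z : ℤ) : ℝ) ((∑ l, X l * Y l * Z l : ℤ) * (q / B)) := by
  have H1 : (1 : ℝ) ≤ H := by exact_mod_cast hH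
  have F0 : 0 ≤ F := (abs_nonneg _).trans hτ
  have lt : ∀ l m : Fin M, (l : ℕ) + M * m < M ^ 2 := by
    intro l m
    have := l.2
    have : (m : ℕ) + 1 ≤ M := m.2
    nlinarith
  have h1 := Near.sum (q := q) (univ : Finset (Fin M × Fin M × Fin M))
    (E := r ^ 3 * (H ^ (M ^ 2) + q / (B * H)))
    (a := fun p => (X p.1 * Y p.2.1 * Z p.2.2 : ℤ) * ((H : ℝ) ^ ((p.1 : ℕ) + M * p.2.1) *
      Cn q B H ((p.2.2 : ℕ) + M * p.2.2)))
    (b := fun p => (X p.1 * Y p.2.1 * Z p.2.2 : ℤ) *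
      (if (p.1 : ℕ) + M * p.2.1 = (p.2.2 : ℕ) + M * p.2.2 then (q : ℝ) / B else 0))
    (fun p _ => by
      refine ((near_all hB hH hBH _ _).mono ?_).smul _ ?_
      · gcongr; exact (lt _ _).le
      · push_cast
        rw [abs_mul, abs_mul, pow_succ, sq]
        gcongr <;> apply_assumption)
  have h2 := Near.sum (q := q) (univ : Finset (Fin M × Fin M))
    (E := F * r ^ 2 * H ^ (2 * M ^ 2))
    (a := fun p => (τ * Y p.1 * Z p.2 : ℤ) * ((H : ℝ) ^ (M ^ 2 + M * p.1) *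
      Cn q B H ((p.2 : ℕ) + M * p.2)))
    (b := fun p => (τ * Y p.1 * Z p.2 : ℤ) * 0)
    (fun p _ => by
      refine ((near_hi hB hH hBH (by have := lt p.2 p.2; omega)).mono ?_).smul _ ?_
      · gcongr
        have := lt p.1 p.1; omega
      · push_cast
        rw [abs_mul, abs_mul, sq, ← mul_assoc]
        gcongr <;> apply_assumption)
  have h3 := h1.add h2
  convert h3 using 1
  · simp only [card_univ, Fintype.card_prod, Fintype.card_fin]; push_cast; ring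
  · simp only [xs, ys, zs, Fintype.sum_prod_type]
    push_cast
    rw [expand]
    congr 1
    · refine sum_congr rfl fun l _ => sum_congr rfl fun m _ => sum_congr rfl fun n _ => ?_
      ring
    · refine sum_congr rfl fun m _ => sum_congr rfl fun n _ => ?_
      ring
  · simp only [mul_zero, sum_const_zero, add_zero, Fintype.sum_prod_type]
    push_cast
    rw [sum_mul]
    refine sum_congr rfl fun l _ => ?_
    rw [sum_eq_single l, sum_eq_single l]
    · simp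
    · intro n _ hn
      rw [if_neg, mul_zero]
      intro h; apply hn; apply Fin.ext
      have : (M + 1) * (l : ℕ) = (M + 1) * n := by linarith
      exact (Nat.eq_of_mul_eq_mul_left (Nat.succ_pos M) this).symm
    · simp
    · intro m _ hm
      refine sum_eq_zero fun n _ => ?_
      rw [if_neg, mul_zero]
      intro h; apply hm; apply Fin.ext
      have h1 := congrArg (· % M) h
      simp only [Nat.add_mul_mod_self_left, Nat.mod_eq_of_lt l.2, Nat.mod_eq_of_lt n.2] at h1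
      rw [h1, add_right_inj] at h
      have := Nat.eq_of_mul_eq_mul_left (Nat.pos_of_ne_zero (by have := l.2; omega)) h
      omega
    · simp

end Vale.Agent.P036
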