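import Mathlib
import Vale.Agent.P036.Bad
import Vale.Agent.P036.Fam

namespace Vale.Agent.P036

open Finset

lemma err_bd {M r q : ℕ} (hM : 1 ≤ M) (hr : 36 * M ^ 3 ≤ r) (hq : (r ^ 8) ^ (4 * M ^ 2 + 2) ≤ q) :
    6 * ((M : ℝ) ^ 3 * ((r : ℝ) ^ 3 * (((r ^ 8 : ℕ) : ℝ) ^ (M ^ 2) + q / ((r ^ 4 : ℕ) * (r ^ 8 : ℕ)))) +
      M ^ 2 * (((r ^ 8 : ℕ) : ℝ) ^ (2 * M ^ 2 + 1) * r ^ 2 * ((r ^ 8 : ℕ) : ℝ) ^ (2 * M ^ 2))) ≤
      q / (2 * (r ^ 4 : ℕ)) := by
  have M1 : (1 : ℝ) ≤ M := by exact_mod_cast hM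
  have hr' : 36 * (M : ℝ) ^ 3 ≤ r := by exact_mod_cast hr
  have M3 : (1 : ℝ) ≤ M ^ 3 := one_le_pow₀ M1
  have r1 : (1 : ℝ) ≤ r := by linarith
  have hq' : ((r : ℝ) ^ 8) ^ (4 * M ^ 2 + 2) ≤ q := by exact_mod_cast hq
  have q0 : (0 : ℝ) ≤ q := Nat.cast_nonneg q
  push_cast
  set H := (r : ℝ) ^ 8 with hH
  have H1 : 1 ≤ H := one_le_pow₀ r1
  rw [le_div_iff₀ (by positivity)]
  have a1 : 36 * (M : ℝ) ^ 3 * r ^ 7 * H ^ (M ^ 2) ≤ q := by
    calc 36 * (M : ℝ) ^ 3 * r ^ 7 * H ^ (M ^ 2) ≤ r * r ^ 7 * H ^ (M ^ 2) := by gcongr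
      _ = H ^ (M ^ 2 + 1) := by rw [hH]; ring
      _ ≤ H ^ (4 * M ^ 2 + 2) := pow_le_pow_right₀ H1 (by omega)
      _ ≤ q := hq'
  have a2 : 36 * (M : ℝ) ^ 3 * r ^ 7 * (q / (r ^ 4 * H)) ≤ q := by
    calc 36 * (M : ℝ) ^ 3 * r ^ 7 * (q / (r ^ 4 * H)) ≤ (r : ℝ) * r ^ 7 * (q / (r ^ 4 * H)) := by
          gcongr
      _ = (q : ℝ) / r ^ 4 := by rw [hH]; field_simp
      _ ≤ (q : ℝ) := div_le_self q0 (one_le_pow₀ r1)
  have a3 : 36 * (M : ℝ) ^ 2 * r ^ 6 * (H ^ (2 * M ^ 2 + 1) * H ^ (2 * M ^ 2)) ≤ q := by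
    have : 36 * (M : ℝ) ^ 2 * r ^ 6 ≤ H := by
      calc 36 * (M : ℝ) ^ 2 * r ^ 6 ≤ 36 * (M : ℝ) ^ 3 * r ^ 7 := by
            gcongr <;> first | assumption | norm_num
        _ ≤ (r : ℝ) * r ^ 7 := by gcongr
        _ = H := by rw [hH]; ring
    calc 36 * (M : ℝ) ^ 2 * r ^ 6 * (H ^ (2 * M ^ 2 + 1) * H ^ (2 * M ^ 2))
        ≤ H * (H ^ (2 * M ^ 2 + 1) * H ^ (2 * M ^ 2)) := by gcongr
      _ = H ^ (4 * M ^ 2 + 2) := by ring
      _ ≤ q := hq'
  nlinarith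

lemma res {M r q m : ℕ} [Fact q.Prime] (hM : 1 ≤ M) (hr : 36 * M ^ 3 ≤ r)
    (hq : (r ^ 8) ^ (4 * M ^ 2 + 2) < q) (Fx Gy Hz : Fin m → Fin M → ℤ)
    (hb : ∀ a l, |Fx a l| ≤ r ∧ |Gy a l| ≤ r ∧ |Hz a l| ≤ r)
    (h1 : ∀ a b c, a ≠ b → a ≠ c → b ≠ c → ∑ l, d3 ![Fx a l, Fx b l, Fx c l]
      ![Gy a l, Gy b l, Gy c l] ![Hz a l, Hz b l, Hz c l] ≠ 0)
    (h2 : ∀ a b, a ≠ b → ∃ l, Gy a l * Hz b l ≠ Gy b l * Hz a l) :
    ∃ ρ : Fin m × Fin ((r ^ 8) ^ (2 * M ^ 2 + 1)) → V3 (ZMod q),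
      (∀ i j k, i.1 ≠ j.1 → i.1 ≠ k.1 → j.1 ≠ k.1 → ∀ D : ℤ, (D : ZMod q) = d3 (ρ i) (ρ j) (ρ k) →
        (q : ℝ) / (2 * (r ^ 4 : ℕ)) ≤ |(D : ℝ)|) ∧
      (∀ i j, i.1 ≠ j.1 → ρ i 1 * ρ j 2 ≠ ρ j 1 * ρ i 2) ∧
      (∀ i j, i.1 = j.1 → ρ i 1 = ρ j 1 ∧ ρ i 2 = ρ j 2) ∧
      (∀ i j, i.1 = j.1 → ρ i 0 = ρ j 0 → i = j) := by
  have hqp : q.Prime := Fact.out
  have M3 : 1 ≤ M ^ 3 := Nat.one_le_pow _ _ hM
  have r0 : 0 < r := by omega
  have r36 : 36 * M ≤ r := le_trans (by gcongr; exact Nat.le_self_pow (by norm_num) M) hr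
  have r1 : (1 : ℝ) ≤ r := by exact_mod_cast r0
  have E := err_bd hM hr hq.le
  set H := r ^ 8 with hH
  set B := r ^ 4 with hB
  have B0 : 0 < B := by positivity
  have H0 : 0 < H := by positivity
  have BH : B ∣ H := pow_dvd_pow r (by norm_num)
  have B2 : (2 : ℝ) ≤ B := by
    have : 2 ≤ B := le_trans (by omega : 2 ≤ r) (Nat.le_self_pow (by norm_num) r)
    exact_mod_cast this
  set E0 := (M : ℝ) ^ 3 * ((r : ℝ) ^ 3 * ((H : ℝ) ^ (M ^ 2) + q / (B * H))) +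
      M ^ 2 * ((H : ℝ) ^ (2 * M ^ 2 + 1) * r ^ 2 * (H : ℝ) ^ (2 * M ^ 2)) with hE0
  have E00 : 0 ≤ E0 := by positivity
  have bF : ∀ a l, |(Fx a l : ℝ)| ≤ r := fun a l => by exact_mod_cast (hb a l).1
  have bG : ∀ a l, |(Gy a l : ℝ)| ≤ r := fun a l => by exact_mod_cast (hb a l).2.1
  have bH : ∀ a l, |(Hz a l : ℝ)| ≤ r := fun a l => by exact_mod_cast (hb a l).2.2
  have tp : ∀ (i : Fin m × Fin (H ^ (2 * M ^ 2 + 1))) (b c : Fin m), Near q E0
      ((xs H (Fx i.1) (i.2 : ℕ) * ys H (Gy b) * zs q B H (Hz c) : ℤ) : ℝ)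
      ((∑ l, Fx i.1 l * Gy b l * Hz c l : ℤ) * (q / B)) := fun i b c =>
    TP B0 H0 BH (bF _) (bG _) (bH _) (by
      rw [abs_of_nonneg (by positivity)]; exact_mod_cast i.2.2.le) (by positivity)
  have p3 : ∀ a b c l, |Fx a l * Gy b l * Hz c l| ≤ (r : ℤ) ^ 3 := fun a b c l => by
    rw [abs_mul, abs_mul, pow_succ, sq]
    have := hb a l; have := hb b l; have := hb c l
    gcongr <;> tauto
  refine ⟨fun i => ![((xs H (Fx i.1) (i.2 : ℕ) : ℤ) : ZMod q), ((ys H (Gy i.1) : ℤ) : ZMod q),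
    ((zs q B H (Hz i.1) : ℤ) : ZMod q)], ?_, ?_, ?_, ?_⟩
  · intro i j k hij hik hjk D hD
    have n := (((((tp k i.1 j.1).add (tp k j.1 i.1).neg).add (tp j k.1 i.1)).add
      (tp i k.1 j.1).neg).add (tp i j.1 k.1)).add (tp j i.1 k.1).neg
    set Φ : ℤ := ∑ l, d3 ![Fx i.1 l, Fx j.1 l, Fx k.1 l] ![Gy i.1 l, Gy j.1 l, Gy k.1 l]
      ![Hz i.1 l, Hz j.1 l, Hz k.1 l] with hΦ
    set D0 : ℤ := d3 ![xs H (Fx i.1) (i.2 : ℕ), ys H (Gy i.1), zs q B H (Hz i.1)]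
      ![xs H (Fx j.1) (j.2 : ℕ), ys H (Gy j.1), zs q B H (Hz j.1)]
      ![xs H (Fx k.1) (k.2 : ℕ), ys H (Gy k.1), zs q B H (Hz k.1)] with hD0
    have n' : Near q (6 * E0) D0 (Φ * (q / B)) := by
      convert n using 1
      · ring
      · simp only [hD0, d3, dt, cr0, cr1, cr2, Matrix.cons_val_zero, Matrix.cons_val_one,
          Matrix.cons_val]
        push_cast; ring
      · simp only [← neg_mul, ← add_mul]
        congr 1
        simp only [hΦ, d3, dt, cr0, cr1, cr2, Matrix.cons_val_zero, Matrix.cons_val_one,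
          Matrix.cons_val]
        push_cast
        simp only [← sum_neg_distrib, ← sum_add_distrib]
        refine sum_congr rfl fun l _ => by ring
    have hΦB : 2 * |Φ| ≤ B := by
      have : |Φ| ≤ ∑ _l : Fin M, 6 * (r : ℤ) ^ 3 := by
        refine (abs_sum_le_sum_abs _ _).trans (sum_le_sum fun l _ => ?_)
        have a1 := abs_le.1 (p3 k.1 i.1 j.1 l)
        have a2 := abs_le.1 (p3 k.1 j.1 i.1 l)
        have a3 := abs_le.1 (p3 j.1 k.1 i.1 l)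
        have a4 := abs_le.1 (p3 i.1 k.1 j.1 l)
        have a5 := abs_le.1 (p3 i.1 j.1 k.1 l)
        have a6 := abs_le.1 (p3 j.1 i.1 k.1 l)
        simp only [d3, dt, cr0, cr1, cr2, Matrix.cons_val_zero, Matrix.cons_val_one,
          Matrix.cons_val]
        rw [abs_le]
        constructor <;> nlinarith [a1.1, a1.2, a2.1, a2.2, a3.1, a3.2, a4.1, a4.2, a5.1, a5.2,
          a6.1, a6.2]
      simp only [sum_const, card_univ, Fintype.card_fin, nsmul_eq_mul] at this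
      have h36 : 36 * (M : ℤ) ≤ r := by exact_mod_cast r36
      have : (0 : ℤ) ≤ (r : ℤ) ^ 3 := by positivity
      rw [hB]; push_cast
      nlinarith
    obtain ⟨k', hk'⟩ : (q : ℤ) ∣ D - D0 := by
      refine (ZMod.intCast_eq_intCast_iff_dvd_sub _ _ q).1 ?_
      rw [hD, hD0]
      simp [d3, dt]
    have := n'.far B2 (h1 _ _ _ hij hik hjk) (by exact_mod_cast hΦB) E k'
    have e : (D : ℝ) = D0 + k' * q := by
      have : D = D0 + k' * q := by linarith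
      exact_mod_cast this
    rwa [e]
  · intro i j hij h
    obtain ⟨l, hl⟩ := h2 _ _ hij
    simp only [Matrix.cons_val_zero, Matrix.cons_val_one, Matrix.cons_val] at h
    have tp' : ∀ b c : Fin m, Near q E0
        ((xs H (Pi.single l 1) 0 * ys H (Gy b) * zs q B H (Hz c) : ℤ) : ℝ)
        ((Gy b l * Hz c l : ℤ) * (q / B)) := fun b c => by
      have := TP (q := q) B0 H0 BH (X := Pi.single l 1) (τ := 0) (F := (H : ℝ) ^ (2 * M ^ 2 + 1))
        (fun l' => by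
          by_cases h : l' = l
          · subst h; simpa using r1
          · simp [h]) (bG b) (bH c) (by simp) (by positivity)
      rwa [sum_eq_single l (fun l' _ h => by simp [h]) (by simp), Pi.single_eq_same, one_mul] at this
    have n := (tp' i.1 j.1).add (tp' j.1 i.1).neg
    rw [← neg_mul, ← add_mul, ← sub_eq_add_neg, ← sub_eq_add_neg, ← Int.cast_sub,
      ← Int.cast_sub] at n
    obtain ⟨k', hk'⟩ : (q : ℤ) ∣ ys H (Gy j.1) * zs q B H (Hz i.1) -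
        ys H (Gy i.1) * zs q B H (Hz j.1) :=
      (ZMod.intCast_eq_intCast_iff_dvd_sub _ _ q).1 (by push_cast; exact h)
    have hΦB : 2 * |Gy i.1 l * Hz j.1 l - Gy j.1 l * Hz i.1 l| ≤ B := by
      have a : ∀ a b, |Gy a l * Hz b l| ≤ (r : ℤ) ^ 2 := fun a b => by
        rw [abs_mul, sq]
        have := hb a l; have := hb b l
        gcongr <;> tauto
      have := abs_sub (Gy i.1 l * Hz j.1 l) (Gy j.1 l * Hz i.1 l)
      have a1 := a i.1 j.1
      have a2 := a j.1 i.1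
      have h36 : (2 : ℤ) ≤ r := by exact_mod_cast (by omega : 2 ≤ r)
      have : (4 : ℤ) ≤ (r : ℤ) ^ 2 := by nlinarith
      rw [hB]; push_cast
      nlinarith
    have := n.far B2 (sub_ne_zero.2 hl) (by exact_mod_cast hΦB) (by linarith)
      (xs H (Pi.single l 1) 0 * k')
    have e : xs H (Pi.single l 1) 0 * ys H (Gy i.1) * zs q B H (Hz j.1) -
        xs H (Pi.single l 1) 0 * ys H (Gy j.1) * zs q B H (Hz i.1) +
        xs H (Pi.single l 1) 0 * k' * q = 0 := by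
      linear_combination -xs H (Pi.single l 1) 0 * hk'
    have e' := congrArg (Int.cast : ℤ → ℝ) e
    rw [Int.cast_add, Int.cast_mul _ (q : ℤ), Int.cast_natCast] at e'
    rw [e'] at this
    have q0 : (0 : ℝ) < q := by exact_mod_cast hqp.pos
    have : (0 : ℝ) < q / (2 * B) := by positivity
    simp only [Int.cast_zero, abs_zero] at *
    linarith
  · intro i j h; simp [h]
  · rintro ⟨a, s⟩ ⟨b, t⟩ h e
    simp only at h
    subst h
    simp only [Matrix.cons_val_zero, xs] at e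
    push_cast at e
    rw [add_right_inj] at e
    have Hq : H ≤ H ^ (4 * M ^ 2 + 2) := Nat.le_self_pow (by omega) H
    have hH0 : (H : ZMod q) ≠ 0 := fun h0 =>
      absurd (Nat.le_of_dvd H0 ((ZMod.natCast_eq_zero_iff H q).1 h0)) (by omega)
    have e2 := mul_right_cancel₀ (pow_ne_zero _ hH0) e
    have Fq : H ^ (2 * M ^ 2 + 1) ≤ H ^ (4 * M ^ 2 + 2) := Nat.pow_le_pow_right H0 (by omega)
    have e3 := (ZMod.natCast_eq_natCast_iff' _ _ _).1 e2
    have := s.2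
    have := t.2
    rw [Nat.mod_eq_of_lt (by omega), Nat.mod_eq_of_lt (by omega)] at e3
    rw [Fin.ext e3]

section comb
variable {K : Type} [Field K] {α β : Type} {ρ : α × β → V3 K}
  (h2 : ∀ i j, i.1 ≠ j.1 → ρ i 1 * ρ j 2 ≠ ρ j 1 * ρ i 2)
  (h3 : ∀ i j, i.1 = j.1 → ρ i 1 = ρ j 1 ∧ ρ i 2 = ρ j 2)
  (h4 : ∀ i j, i.1 = j.1 → ρ i 0 = ρ j 0 → i = j) [Nontrivial α]
include h2

lemma yz_ne (i : α × β) : ¬ (ρ i 1 = 0 ∧ ρ i 2 = 0) := by
  obtain ⟨b, hb⟩ := exists_ne i.1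
  rintro ⟨e1, e2⟩
  exact h2 i (b, i.2) hb.symm (by rw [e1, e2]; ring)

include h3 h4 in
lemma cr_ne {i j : α × β} (h : i ≠ j) : cr (ρ i) (ρ j) ≠ 0 := by
  intro e
  have e0 := congrFun e 0
  have e1 := congrFun e 1
  have e2 := congrFun e 2
  simp only [cr0, cr1, cr2, Pi.zero_apply] at e0 e1 e2
  by_cases hc : i.1 = j.1
  · obtain ⟨a1, a2⟩ := h3 i j hc
    have hx : ρ i 0 - ρ j 0 ≠ 0 := fun h0 => h (h4 i j hc (sub_eq_zero.1 h0))
    refine yz_ne h2 i ⟨mul_left_cancel₀ hx ?_, mul_left_cancel₀ hx ?_⟩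
    · rw [← a1] at e2; linear_combination e2
    · rw [← a2] at e1; linear_combination -e1
  · exact h2 i j hc (by linear_combination e0)

include h3 in
lemma ker2 (i k : α × β) {a b : K} (e1 : a * ρ i 1 + b * ρ k 1 = 0) (e2 : a * ρ i 2 + b * ρ k 2 = 0) :
    a + b = 0 := by
  by_cases hc : i.1 = k.1
  · obtain ⟨a1, a2⟩ := h3 i k hc
    by_contra h0
    refine yz_ne h2 i ⟨mul_left_cancel₀ h0 ?_, mul_left_cancel₀ h0 ?_⟩
    · rw [← a1] at e1; linear_combination e1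
    · rw [← a2] at e2; linear_combination e2
  · have := sub_ne_zero.2 (h2 i k hc)
    apply mul_left_cancel₀ this
    linear_combination (ρ k 2 - ρ i 2) * e1 + (ρ i 1 - ρ k 1) * e2

include h3 in
lemma ker3 {i j k : α × β} (h : i.1 = j.1 ∨ i.1 = k.1 ∨ j.1 = k.1) (c : V3 K)
    (e : c 0 • ρ i + c 1 • ρ j + c 2 • ρ k = 0) : c 0 + c 1 + c 2 = 0 := by
  have e1 := congrFun e 1
  have e2 := congrFun e 2
  simp only [Pi.add_apply, Pi.smul_apply, smul_eq_mul, Pi.zero_apply] at e1 e2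
  rcases h with h | h | h
  · obtain ⟨a1, a2⟩ := h3 _ _ h
    rw [← a1] at e1
    rw [← a2] at e2
    exact ker2 h2 h3 i k (by linear_combination e1) (by linear_combination e2)
  · obtain ⟨a1, a2⟩ := h3 _ _ h
    rw [← a1] at e1
    rw [← a2] at e2
    have := ker2 h2 h3 i j (a := c 0 + c 2) (b := c 1) (by linear_combination e1)
      (by linear_combination e2)
    linear_combination this
  · obtain ⟨a1, a2⟩ := h3 _ _ h
    rw [← a1] at e1
    rw [← a2] at e2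
    have := ker2 h2 h3 i j (a := c 0) (b := c 1 + c 2) (by linear_combination e1)
      (by linear_combination e2)
    linear_combination this
end comb

/-- averaging and deletion -/
lemma delete {Ω α β γ : Type} [Fintype α] [Fintype β] [Fintype γ] [DecidableEq α] [DecidableEq β]
    [DecidableEq γ] (O : Finset Ω) (hO : O.Nonempty)
    (bad : (α × β) × γ → (α × β) × γ → (α × β) × γ → Ω → Prop) [∀ i j k, DecidablePred (bad i j k)]
    {bA bB : ℝ} (hA0 : 0 ≤ bA) (hB0 : 0 ≤ bB)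
    (h0 : ∀ i j k, i.1.1 ≠ j.1.1 → i.1.1 ≠ k.1.1 → j.1.1 ≠ k.1.1 → ∀ ω ∈ O, ¬ bad i j k ω)
    (hA : ∀ i j k, i ≠ j → i ≠ k → j ≠ k → (i.1.1 = j.1.1 ∨ i.1.1 = k.1.1 ∨ j.1.1 = k.1.1) →
      ¬ (i.1 = j.1 ∧ i.1 = k.1) → ((O.filter (bad i j k)).card : ℝ) ≤ bA)
    (hB : ∀ i j k, i ≠ j → i ≠ k → j ≠ k → i.1 = j.1 → i.1 = k.1 →
      ((O.filter (bad i j k)).card : ℝ) ≤ bB)
    (hn : 3 * (Fintype.card ((α × β) × γ) : ℝ) * (Fintype.card β * Fintype.card γ) * bA +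
      (Fintype.card γ : ℝ) ^ 2 * bB ≤ O.card / 2) :
    ∃ ω ∈ O, ∃ S : Finset ((α × β) × γ), Fintype.card ((α × β) × γ) ≤ 2 * S.card ∧
      ∀ i ∈ S, ∀ j ∈ S, ∀ k ∈ S, i ≠ j → i ≠ k → j ≠ k → ¬ bad i j k ω := by
  set n := Fintype.card ((α × β) × γ) with hn'
  let Bt : Ω → Finset (((α × β) × γ) × ((α × β) × γ) × ((α × β) × γ)) := fun ω =>
    univ.filter fun t => (t.1 ≠ t.2.1 ∧ t.1 ≠ t.2.2 ∧ t.2.1 ≠ t.2.2) ∧ bad t.1 t.2.1 t.2.2 ω
  have c1 : ∀ i : (α × β) × γ, ∑ j : (α × β) × γ, (if i.1.1 = j.1.1 then (1 : ℝ) else 0) =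
      Fintype.card β * Fintype.card γ := by
    intro i
    rw [Fintype.sum_prod_type, Fintype.sum_prod_type, sum_eq_single i.1.1]
    · simp
    · intro b _ hb; simp [hb.symm]
    · simp
  have c2 : ∀ i : (α × β) × γ, ∑ j : (α × β) × γ, (if i.1 = j.1 then (1 : ℝ) else 0) =
      Fintype.card γ := by
    intro i
    rw [Fintype.sum_prod_type, sum_eq_single i.1]
    · simp
    · intro b _ hb; simp [hb.symm]
    · simp
  have tot : ∑ ω ∈ O, ((Bt ω).card : ℝ) ≤ ∑ _ω ∈ O, (n : ℝ) / 2 := by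
    simp only [Bt, card_filter]
    push_cast
    rw [sum_comm]
    have : ∀ t ∈ (univ : Finset (((α × β) × γ) × ((α × β) × γ) × ((α × β) × γ))),
        ∑ ω ∈ O, (if (t.1 ≠ t.2.1 ∧ t.1 ≠ t.2.2 ∧ t.2.1 ≠ t.2.2) ∧ bad t.1 t.2.1 t.2.2 ω
          then (1 : ℝ) else 0) ≤
        bA * (if t.1.1.1 = t.2.1.1.1 then 1 else 0) + bA * (if t.1.1.1 = t.2.2.1.1 then 1 else 0) +
        bA * (if t.2.1.1.1 = t.2.2.1.1 then 1 else 0) +
        bB * ((if t.1.1 = t.2.1.1 then 1 else 0) * (if t.1.1 = t.2.2.1 then 1 else 0)) := by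
      rintro ⟨i, j, k⟩ _
      have p1 : 0 ≤ bA * (if i.1.1 = j.1.1 then 1 else 0) := by positivity
      have p2 : 0 ≤ bA * (if i.1.1 = k.1.1 then 1 else 0) := by positivity
      have p3 : 0 ≤ bA * (if j.1.1 = k.1.1 then 1 else 0) := by positivity
      have p4 : 0 ≤ bB * ((if i.1 = j.1 then 1 else 0) * (if i.1 = k.1 then 1 else 0)) := by
        positivity
      by_cases hd : i ≠ j ∧ i ≠ k ∧ j ≠ k
      · simp only [hd, true_and, and_self, ne_eq, not_false_eq_true, sum_boole]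
        by_cases e : i.1 = j.1 ∧ i.1 = k.1
        · have := hB i j k hd.1 hd.2.1 hd.2.2 e.1 e.2
          rw [if_pos e.1, if_pos e.2]
          linarith
        · by_cases e' : i.1.1 = j.1.1 ∨ i.1.1 = k.1.1 ∨ j.1.1 = k.1.1
          · have := hA i j k hd.1 hd.2.1 hd.2.2 e' e
            rcases e' with e' | e' | e' <;> rw [if_pos e'] at * <;> linarith
          · push Not at e'
            rw [filter_false_of_mem (h0 i j k e'.1 e'.2.1 e'.2.2)]
            simp only [card_empty, Nat.cast_zero]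
            linarith
      · simp only [hd, false_and, if_false, sum_const_zero]
        linarith
    refine (sum_le_sum this).trans ?_
    simp only [sum_add_distrib, ← mul_sum]
    have s1 : ∑ t : ((α × β) × γ) × ((α × β) × γ) × ((α × β) × γ),
        (if t.1.1.1 = t.2.1.1.1 then (1 : ℝ) else 0) = n * n * (Fintype.card β * Fintype.card γ) := by
      rw [Fintype.sum_prod_type, sum_congr rfl (g := fun _ => (n : ℝ) *
        (Fintype.card β * Fintype.card γ)), sum_const, card_univ, nsmul_eq_mul, mul_assoc]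
      intro i _
      rw [Fintype.sum_prod_type_right, sum_congr rfl (g := fun _ => (Fintype.card β : ℝ) *
        Fintype.card γ) (fun k _ => c1 i), sum_const, card_univ, nsmul_eq_mul]
    have s2 : ∑ t : ((α × β) × γ) × ((α × β) × γ) × ((α × β) × γ),
        (if t.1.1.1 = t.2.2.1.1 then (1 : ℝ) else 0) = n * n * (Fintype.card β * Fintype.card γ) := by
      rw [Fintype.sum_prod_type]
      simp only [Fintype.sum_prod_type (α₁ := (α × β) × γ), sum_const, card_univ, nsmul_eq_mul,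
        c1, ← hn']
      ring
    have s3 : ∑ t : ((α × β) × γ) × ((α × β) × γ) × ((α × β) × γ),
        (if t.2.1.1.1 = t.2.2.1.1 then (1 : ℝ) else 0) =
          n * n * (Fintype.card β * Fintype.card γ) := by
      rw [Fintype.sum_prod_type]
      simp only [Fintype.sum_prod_type (α₁ := (α × β) × γ), sum_const, card_univ, nsmul_eq_mul,
        c1, ← hn']
      ring
    have s4 : ∑ t : ((α × β) × γ) × ((α × β) × γ) × ((α × β) × γ),
        ((if t.1.1 = t.2.1.1 then (1 : ℝ) else 0) * (if t.1.1 = t.2.2.1 then 1 else 0)) =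
          n * Fintype.card γ ^ 2 := by
      rw [Fintype.sum_prod_type, sum_congr rfl (g := fun _ => (Fintype.card γ : ℝ) ^ 2),
        sum_const, card_univ, nsmul_eq_mul]
      intro i _
      rw [Fintype.sum_prod_type, sq]
      nth_rewrite 1 [← c2 i]
      rw [← c2 i, sum_mul_sum]
    rw [s1, s2, s3, s4, sum_const, nsmul_eq_mul]
    have := mul_le_mul_of_nonneg_left hn (Nat.cast_nonneg n : (0 : ℝ) ≤ n)
    linarith
  obtain ⟨ω, hω, hb⟩ := exists_le_of_sum_le hO tot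
  refine ⟨ω, hω, univ \ (Bt ω).image Prod.fst, ?_, ?_⟩
  · have a1 : 2 * (Bt ω).card ≤ n := by
      have : 2 * ((Bt ω).card : ℝ) ≤ n := by linarith
      exact_mod_cast this
    have a2 := card_image_le (s := Bt ω) (f := Prod.fst)
    rw [card_sdiff_of_subset (subset_univ _), card_univ, ← hn']
    omega
  · intro i hi j _ k _ h1 h2 h3 hb
    exact (mem_sdiff.1 hi).2 (mem_image.2 ⟨(i, j, k), mem_filter.2 ⟨mem_univ _, ⟨h1, h2, h3⟩, hb⟩, rfl⟩)

end Vale.Agent.P036
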