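import Mathlib
import Vale.Agent.P036.Main

namespace Vale.Agent.P036

open Finset

lemma Lg_bd {r N e : ℕ} (hr : 129 ≤ r) (hN : N ≤ 4 * r ^ e) : Lg N ≤ 4 * (e + 1) * r := by
  have r1 : (1 : ℝ) ≤ r := by exact_mod_cast (by omega : 1 ≤ r)
  have a1 : 2 * (2 * N) ^ 2 + 1 ≤ r ^ (2 * e + 1) := by
    have p : 1 ≤ r ^ (2 * e) := Nat.one_le_pow _ _ (by omega)
    calc 2 * (2 * N) ^ 2 + 1 ≤ 2 * (2 * (4 * r ^ e)) ^ 2 + r ^ (2 * e) := by gcongr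
      _ = 129 * r ^ (2 * e) := by ring
      _ ≤ r * r ^ (2 * e) := by gcongr
      _ = _ := by ring
  have a2 : Real.log (((2 * (2 * N) ^ 2 : ℕ) : ℝ) + 1) ≤ (2 * e + 1 : ℕ) * Real.log r := by
    rw [← Real.log_pow]
    exact Real.log_le_log (by positivity) (by exact_mod_cast a1)
  have a3 : Real.log r ≤ r := (Real.log_le_sub_one_of_pos (by linarith)).trans (by linarith)
  have a4 : ((2 * e + 1 : ℕ) : ℝ) * Real.log r ≤ (2 * e + 1 : ℕ) * r := by gcongr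
  unfold Lg
  push_cast at *
  nlinarith

lemma num_bd {r q l f : ℕ} {c G : ℝ} (hc : 0 ≤ c) (hr : 40 * 1764 ^ 3 * c ^ 3 ≤ r) (hr1 : 1 ≤ r)
    (hG0 : 0 ≤ G) (hG : G ≤ c * r) (q1 : r ^ (2 * f) ≤ q) (q2 : q ≤ 2 * r ^ (2 * f))
    (l1 : r ^ (4 * f + 5) ≤ l) :
    3 * ((r : ℝ) ^ (8 * f + 10)) * (r ^ f * r ^ (7 * f + 1)) *
        (1764 ^ 3 * ((q * l : ℕ) : ℝ) ^ 6 * l ^ 2 * G ^ 3) +
      ((r : ℝ) ^ (7 * f + 1)) ^ 2 * (784 ^ 3 * (q : ℝ) ^ 7 * l ^ 8 * G ^ 3) ≤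
      (q : ℝ) ^ 8 * l ^ 11 / 8 := by
  have r1 : (1 : ℝ) ≤ r := by exact_mod_cast hr1
  have q1' : (r : ℝ) ^ (2 * f) ≤ q := by exact_mod_cast q1
  have q2' : (q : ℝ) ≤ 2 * (r : ℝ) ^ (2 * f) := by exact_mod_cast q2
  have l1' : (r : ℝ) ^ (4 * f + 5) ≤ l := by exact_mod_cast l1
  have G3 : 40 * 1764 ^ 3 * G ^ 3 ≤ (r : ℝ) ^ 4 := by
    calc 40 * 1764 ^ 3 * G ^ 3 ≤ 40 * 1764 ^ 3 * (c * r) ^ 3 := by gcongr
      _ = (40 * 1764 ^ 3 * c ^ 3) * r ^ 3 := by ring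
      _ ≤ r * r ^ 3 := by gcongr
      _ = _ := by ring
  have a1 : (r : ℝ) ^ (16 * f + 15) ≤ q ^ 2 * l ^ 3 := by
    calc (r : ℝ) ^ (16 * f + 15) = (r ^ (2 * f)) ^ 2 * (r ^ (4 * f + 5)) ^ 3 := by ring
      _ ≤ _ := by gcongr
  have a2 : ((r : ℝ) ^ (7 * f + 1)) ^ 2 * q ≤ 2 * r ^ (16 * f + 11) := by
    calc ((r : ℝ) ^ (7 * f + 1)) ^ 2 * q ≤ ((r : ℝ) ^ (7 * f + 1)) ^ 2 * (2 * r ^ (2 * f)) := by
          gcongr
      _ = 2 * (r : ℝ) ^ (16 * f + 2) := by ring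
      _ ≤ _ := by gcongr; omega
  have a3 : 3 * (r : ℝ) ^ (16 * f + 11) * (1764 ^ 3 * G ^ 3) +
      ((r : ℝ) ^ (7 * f + 1)) ^ 2 * q * (784 ^ 3 * G ^ 3) ≤ q ^ 2 * l ^ 3 / 8 := by
    calc _ ≤ 3 * (r : ℝ) ^ (16 * f + 11) * (1764 ^ 3 * G ^ 3) +
          2 * r ^ (16 * f + 11) * (1764 ^ 3 * G ^ 3) := by gcongr; norm_num
      _ = r ^ (16 * f + 11) * (40 * 1764 ^ 3 * G ^ 3) / 8 := by ring
      _ ≤ r ^ (16 * f + 11) * r ^ 4 / 8 := by gcongr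
      _ = r ^ (16 * f + 15) / 8 := by ring
      _ ≤ _ := by gcongr
  have a4 := mul_le_mul_of_nonneg_left a3 (by positivity : (0 : ℝ) ≤ q ^ 6 * l ^ 8)
  push_cast
  calc _ = (q : ℝ) ^ 6 * l ^ 8 * (3 * (r : ℝ) ^ (16 * f + 11) * (1764 ^ 3 * G ^ 3) +
      ((r : ℝ) ^ (7 * f + 1)) ^ 2 * q * (784 ^ 3 * G ^ 3)) := by ring
    _ ≤ _ := a4
    _ = _ := by ring

theorem core : ∃ A r0 : ℕ, 1 ≤ A ∧ ∀ r : ℕ, r.Prime → r0 ≤ r → ∀ n : ℕ, 2 * n ≤ r ^ A →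
    ∃ (N : ℕ) (v : Fin n → V3 ℤ), 0 < N ∧ (∀ i, (0 ≤ v i 0 ∧ v i 0 < N) ∧ (0 ≤ v i 1 ∧ v i 1 < N) ∧
      (N : ℤ) ≤ v i 2 ∧ v i 2 < 2 * N) ∧ ∀ i j k, i ≠ j → i ≠ k → j ≠ k →
      (N : ℝ) ^ 3 / (64 * (r : ℝ) ^ (2 * A - 1)) ≤ |((d3 (v i) (v j) (v k) : ℤ) : ℝ)| := by
  classical
  obtain ⟨M, hM, hfam⟩ := fam
  set f := 8 * (2 * M ^ 2 + 1) with hf
  set c : ℕ := 4 * (6 * f + 5 + 1) with hc
  refine ⟨8 * f + 10, 36 * M ^ 3 + 129 + 40 * 1764 ^ 3 * c ^ 3, by omega, fun r hr hr0 n hn => ?_⟩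
  have r1 : 1 ≤ r := by omega
  obtain ⟨Fx, Gy, Hz, hb, h1, h2⟩ := hfam r hr (by omega)
  obtain ⟨q, hq, q1, q2⟩ := Nat.exists_prime_lt_and_le_two_mul (r ^ (2 * f)) (by positivity)
  obtain ⟨l, hl, l1, l2⟩ := Nat.exists_prime_lt_and_le_two_mul (r ^ (4 * f + 5)) (by positivity)
  have : Fact q.Prime := ⟨hq⟩
  have : Fact l.Prime := ⟨hl⟩
  have rq : r ≤ r ^ (2 * f) := Nat.le_self_pow (by omega) r
  have ql : 2 * r ^ (2 * f) ≤ r ^ (4 * f + 5) := by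
    calc 2 * r ^ (2 * f) ≤ r * r ^ (2 * f) := by gcongr; omega
      _ = r ^ (2 * f + 1) := by ring
      _ ≤ _ := Nat.pow_le_pow_right r1 (by omega)
  obtain ⟨L⟩ := exists_lift (q := q) (l := l) (by omega)
  obtain ⟨ρ, ρ1, ρ2, ρ3, ρ4⟩ := res (q := q) hM (by omega) (by
    rw [← pow_mul]; convert q1 using 2; omega) Fx Gy Hz hb h1 h2
  obtain ⟨cap, hcap⟩ := exists_cap (F := ZMod l) (by rw [ZMod.ringChar_zmod_n]; omega)
  have nt : Nontrivial (Fin (r ^ 9)) := Fin.nontrivial_iff_two_le.2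
    (le_trans (by omega) (Nat.le_self_pow (by norm_num) r))
  have cI : Fintype.card ((Fin (r ^ 9) × Fin ((r ^ 8) ^ (2 * M ^ 2 + 1))) × Fin (r ^ (7 * f + 1))) =
      r ^ (8 * f + 10) := by
    simp only [Fintype.card_prod, Fintype.card_fin, ← pow_mul, ← hf, ← pow_add]
    congr 1; omega
  obtain ⟨lab⟩ : Nonempty ((Fin (r ^ 9) × Fin ((r ^ 8) ^ (2 * M ^ 2 + 1))) ×
      Fin (r ^ (7 * f + 1)) ↪ ZMod l × ZMod l) := by
    apply Function.Embedding.nonempty_of_card_le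
    rw [cI, Fintype.card_prod, ZMod.card]
    calc r ^ (8 * f + 10) = r ^ (4 * f + 5) * r ^ (4 * f + 5) := by ring
      _ ≤ l * l := Nat.mul_le_mul l1.le l1.le
  set T : ℝ := q / (2 * (r ^ 4 : ℕ)) with hT
  have q0 : (0 : ℝ) < q := by exact_mod_cast hq.pos
  have r4 : (1 : ℝ) ≤ (r ^ 4 : ℕ) := by exact_mod_cast Nat.one_le_pow _ _ r1
  have hT2 : 2 * T ≤ q := by
    rw [hT, mul_div_assoc', mul_div_mul_left _ _ (two_ne_zero)]
    exact div_le_self q0.le r4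
  have hO := Omega_card (q := q) (l := l) (by omega) (by omega)
  have l0 : (0 : ℝ) < l := by exact_mod_cast hl.pos
  have Lg0 : 0 ≤ Lg (q * l) := by
    have := Real.log_nonneg (x := ((2 * (2 * (q * l)) ^ 2 : ℕ) : ℝ) + 1)
      (le_add_of_nonneg_left (Nat.cast_nonneg _))
    unfold Lg; positivity
  have LgB : Lg (q * l) ≤ c * r := by
    have := Lg_bd (r := r) (N := q * l) (e := 6 * f + 5) (by omega) (by
      calc q * l ≤ (2 * r ^ (2 * f)) * (2 * r ^ (4 * f + 5)) := Nat.mul_le_mul q2 l2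
        _ = _ := by ring)
    rw [hc]; push_cast at *; linarith
  obtain ⟨ω, hω, S, hS, hgood⟩ := delete (Omega q l) (by
      rw [← card_pos]
      have : (0 : ℝ) < (Omega q l).card := by
        have : (0 : ℝ) < (q : ℝ) ^ 8 * l ^ 11 := by positivity
        linarith
      exact_mod_cast this)
    (fun (i j k : (Fin (r ^ 9) × Fin ((r ^ 8) ^ (2 * M ^ 2 + 1))) × Fin (r ^ (7 * f + 1))) =>
      Bad L T (ρ i.1) (ρ j.1) (ρ k.1) (cap (lab i)) (cap (lab j)) (cap (lab k)))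
    (bA := 1764 ^ 3 * ((q * l : ℕ) : ℝ) ^ 6 * l ^ 2 * Lg (q * l) ^ 3)
    (bB := 784 ^ 3 * (q : ℝ) ^ 7 * l ^ 8 * Lg (q * l) ^ 3) (by positivity) (by positivity)
    (fun i j k a b c ω hω hbad => absurd (ρ1 _ _ _ a b c _ (pt_det L hω)) (not_le.2 hbad))
    (fun i j k a b c d e => by
      refine badA L (hcap _ _ _ (lab.injective.ne a) (lab.injective.ne b) (lab.injective.ne c)) hT2
        ?_ (ker3 ρ2 ρ3 d)
      by_cases h : i.1 = j.1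
      · exact Or.inr (Or.inr (cr_ne ρ2 ρ3 ρ4 fun h' => e ⟨h, h'⟩))
      · exact Or.inl (cr_ne ρ2 ρ3 ρ4 h))
    (fun i j k a b c d e => by
      rw [← d, ← e]
      exact badB L (hcap _ _ _ (lab.injective.ne a) (lab.injective.ne b) (lab.injective.ne c)) hT2
        fun h => yz_ne ρ2 i.1 ⟨by rw [h]; rfl, by rw [h]; rfl⟩)
    (by
      have := num_bd (r := r) (q := q) (l := l) (f := f) (c := c) (Nat.cast_nonneg _)
        (by exact_mod_cast (by omega : 40 * 1764 ^ 3 * c ^ 3 ≤ r)) r1 Lg0 LgB q1.le q2 l1.le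
      rw [cI]
      simp only [Fintype.card_fin, ← pow_mul, ← hf]
      push_cast at this ⊢
      linarith)
  rw [cI] at hS
  obtain ⟨S', hS', hc'⟩ := exists_subset_card_eq (s := S) (n := n) (by omega)
  let e : Fin n ≃ S' := (S'.equivFinOfCardEq hc').symm
  refine ⟨q * l, fun i => pt L ω (ρ (e i).1.1) (cap (lab (e i).1)), Nat.mul_pos hq.pos hl.pos,
    fun i => ⟨L.b0 _ _, L.b1 _ _, L.b2 _ _⟩, fun i j k a b c => ?_⟩
  have := hgood _ (hS' (e i).2) _ (hS' (e j).2) _ (hS' (e k).2)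
    (fun h => a (e.injective (Subtype.ext h))) (fun h => b (e.injective (Subtype.ext h)))
    (fun h => c (e.injective (Subtype.ext h)))
  refine le_trans ?_ (not_lt.1 this)
  have q2' : (q : ℝ) ≤ 2 * (r : ℝ) ^ (2 * f) := by exact_mod_cast q2
  have l2' : (l : ℝ) ≤ 2 * (r : ℝ) ^ (4 * f + 5) := by exact_mod_cast l2
  have r0' : (0 : ℝ) < r := by exact_mod_cast r1
  rw [hT, div_le_div_iff₀ (by positivity) (by positivity),
    show 2 * (8 * f + 10) - 1 = 16 * f + 19 by omega]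
  push_cast
  calc ((q : ℝ) * l) ^ 3 * (2 * r ^ 4) = q * (q ^ 2 * l ^ 3 * (2 * r ^ 4)) := by ring
    _ ≤ q * ((2 * (r : ℝ) ^ (2 * f)) ^ 2 * (2 * (r : ℝ) ^ (4 * f + 5)) ^ 3 * (2 * r ^ 4)) := by
        gcongr
    _ = _ := by ring

/-- planar form -/
theorem planar : ∃ η c : ℝ, 0 < η ∧ 0 < c ∧ ∀ n : ℕ, 3 ≤ n → ∃ p : Fin n → ℝ × ℝ,
    (∀ i, (0 ≤ (p i).1 ∧ (p i).1 ≤ 1) ∧ 0 ≤ (p i).2 ∧ (p i).2 ≤ 1) ∧
    ∀ i j k, i ≠ j → i ≠ k → j ≠ k → c * (n : ℝ) ^ (-2 + η) ≤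
      |((p j).1 - (p i).1) * ((p k).2 - (p i).2) - ((p k).1 - (p i).1) * ((p j).2 - (p i).2)| / 2 := by
  obtain ⟨A, r0, hA, h⟩ := core
  have A0 : (0 : ℝ) < A := by exact_mod_cast hA
  set K : ℝ := 2 * (r0 + 3) with hK
  refine ⟨1 / A, 1 / (1024 * K ^ (2 * A - 1)), by positivity, by positivity, fun n hn => ?_⟩
  have n0 : (0 : ℝ) < n := by exact_mod_cast (by omega : 0 < n)
  have n1 : (1 : ℝ) ≤ n := by exact_mod_cast (by omega : 1 ≤ n)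
  set x : ℝ := (n : ℝ) ^ (1 / A : ℝ) with hx
  have x1 : 1 ≤ x := Real.one_le_rpow n1 (by positivity)
  have xA : x ^ A = n := by
    rw [hx, ← Real.rpow_natCast, ← Real.rpow_mul n0.le, one_div_mul_cancel A0.ne', Real.rpow_one]
  obtain ⟨r, hr, r1, r2⟩ := Nat.exists_prime_lt_and_le_two_mul (r0 + ⌈2 * x⌉₊) (by
    have : 0 < ⌈2 * x⌉₊ := Nat.ceil_pos.2 (by linarith)
    omega)
  have a1 : 2 * x ≤ r := (Nat.le_ceil _).trans (by exact_mod_cast (by omega : ⌈2 * x⌉₊ ≤ r))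
  have a2 : (r : ℝ) ≤ K * x := by
    have b1 : (r : ℝ) ≤ 2 * (r0 + ⌈2 * x⌉₊) := by exact_mod_cast r2
    have b2 := Nat.ceil_lt_add_one (by linarith : 0 ≤ 2 * x)
    have b3 : (0 : ℝ) ≤ r0 := Nat.cast_nonneg _
    rw [hK]; nlinarith
  have a3 : 2 * n ≤ r ^ A := by
    have : 2 * (n : ℝ) ≤ (r : ℝ) ^ A := by
      calc 2 * (n : ℝ) ≤ 2 ^ A * x ^ A := by
            rw [xA]; gcongr; exact le_self_pow₀ (by norm_num) (by omega)
        _ = (2 * x) ^ A := by rw [mul_pow]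
        _ ≤ _ := by gcongr
    exact_mod_cast this
  obtain ⟨N, v, hN, hv, hd⟩ := h r hr (by omega) n a3
  have N0 : (0 : ℝ) < N := by exact_mod_cast hN
  have z1 : ∀ i, (N : ℝ) ≤ v i 2 := fun i => by exact_mod_cast (hv i).2.2.1
  have z2 : ∀ i, (v i 2 : ℝ) ≤ 2 * N := fun i => by exact_mod_cast (hv i).2.2.2.le
  have z0 : ∀ i, (0 : ℝ) < v i 2 := fun i => N0.trans_le (z1 i)
  refine ⟨fun i => ((v i 0 : ℝ) / v i 2, (v i 1 : ℝ) / v i 2), fun i => ?_, fun i j k a b c => ?_⟩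
  · have b0 : (0 : ℝ) ≤ v i 0 := by exact_mod_cast (hv i).1.1
    have b1 : (v i 0 : ℝ) ≤ N := by exact_mod_cast (hv i).1.2.le
    have c0 : (0 : ℝ) ≤ v i 1 := by exact_mod_cast (hv i).2.1.1
    have c1 : (v i 1 : ℝ) ≤ N := by exact_mod_cast (hv i).2.1.2.le
    have := z0 i
    exact ⟨⟨by positivity, (div_le_one this).2 (b1.trans (z1 i))⟩, by positivity,
      (div_le_one this).2 (c1.trans (z1 i))⟩
  · have e : ((v j 0 : ℝ) / v j 2 - v i 0 / v i 2) * (v k 1 / v k 2 - v i 1 / v i 2) -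
        (v k 0 / v k 2 - v i 0 / v i 2) * (v j 1 / v j 2 - v i 1 / v i 2) =
        ((d3 (v i) (v j) (v k) : ℤ) : ℝ) / (v i 2 * v j 2 * v k 2) := by
      have := z0 i; have := z0 j; have := z0 k
      simp only [d3, dt, cr0, cr1, cr2]
      push_cast
      field_simp
      ring
    have zp : (0 : ℝ) < v i 2 * v j 2 * v k 2 := mul_pos (mul_pos (z0 i) (z0 j)) (z0 k)
    simp only
    rw [e, abs_div, abs_of_pos zp]
    have r0' : (0 : ℝ) < r := by linarith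
    have b1 : (v i 2 : ℝ) * v j 2 * v k 2 ≤ (2 * N) * (2 * N) * (2 * N) := by
      have := z0 i; have := z0 j; have := z0 k
      gcongr <;> apply z2
    have b2 : (n : ℝ) ^ (-2 + 1 / A : ℝ) = 1 / x ^ (2 * A - 1) := by
      rw [hx, ← Real.rpow_natCast, ← Real.rpow_mul n0.le, one_div, one_div ((n : ℝ) ^ _),
        ← Real.rpow_neg n0.le]
      congr 1
      rw [Nat.cast_sub (by omega)]
      push_cast
      field_simp
      ring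
    calc 1 / (1024 * K ^ (2 * A - 1)) * (n : ℝ) ^ (-2 + 1 / A : ℝ)
        = 1 / (1024 * (K * x) ^ (2 * A - 1)) := by
          rw [b2, mul_pow K x, one_div_mul_one_div, mul_assoc]
      _ ≤ 1 / (1024 * (r : ℝ) ^ (2 * A - 1)) := by gcongr
      _ = (N : ℝ) ^ 3 / (64 * (r : ℝ) ^ (2 * A - 1)) / ((2 * N) * (2 * N) * (2 * N)) / 2 := by
          field_simp; norm_num
      _ ≤ _ := by gcongr; exact hd i j k a b c

end Vale.Agent.P036
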